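import Crest.Agent.N221.Car.BrDefs

/-!
Row 221, block `Car` (helper34): Gauss formula and Gauss equation for the frame of the cover.
-/

set_option autoImplicit false

open MeasureTheory Set Function
open scoped ContDiff RealInnerProductSpace
open Crest.GeometryTopology.Submanifold
open Crest.Agent.R241.DDefs Crest.Agent.R241.D2
open Crest.Agent.R208.J Crest.Agent.R208.L
open Crest.Agent.R086 Crest.Agent.R086.SH

noncomputable section

namespace Crest.Agent.N221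

namespace Frm

variable {n N : ℕ} {a : ℝ} {S : Set (Euc N)} {G : Geo n N (-(a ^ 2)) S} {C : Cov G} (Φ : Frm C)

lemma diff_O : Differentiable ℝ Φ.O := Φ.O_sm.differentiable (by simp)

lemma dO_apply (x z b : Euc n) : Φ.dO x z b = fderiv ℝ Φ.O x z b := by
  unfold dO
  rw [fderiv_clm_apply (Φ.diff_O x) (differentiableAt_const b)]
  simp

/-- tangent and normal part of `dO` -/
lemma dO_split (x z v : Euc n) : Φ.dO x z v =
    G.P (C.pr x) (Φ.dO x z v) + II G (C.pr x) (fderiv ℝ C.pr x z) (Φ.O x v) := by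
  have e : (fun y => Φ.O y v) = fun y => G.P (C.pr y) (Φ.O y v) :=
    funext fun y => ((P_eq_self G (C.pr_mem y)).1 (Φ.O_mem y v)).symm
  have h1 : HasFDerivAt (fun y => G.P (C.pr y))
      ((fderiv ℝ G.P (C.pr x)).comp (fderiv ℝ C.pr x)) x :=
    (differentiable_P G _).hasFDerivAt.comp x (C.diff_pr x).hasFDerivAt
  have h2 := h1.clm_apply (Φ.hasFDerivAt_col x v)
  rw [← e] at h2
  have h3 := congrArg (fun L => L z) ((Φ.hasFDerivAt_col x v).unique h2)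
  simpa [dO, II] using h3

lemma O_omv (x : Euc n) (i : Fin n) (v : Euc n) :
    Φ.O x (Φ.fr.omv i x v) = G.P (C.pr x) (Φ.dO x (Φ.E x (ε i)) v) := by
  rw [Φ.expand x (P_mem G (C.pr_mem x) (v := Φ.dO x (Φ.E x (ε i)) v))]
  conv_lhs => rw [← sum_ε (Φ.fr.omv i x v), map_sum]
  refine Finset.sum_congr rfl fun k _ => ?_
  rw [map_smul, inner_P_left G (C.pr_mem x), (P_eq_self G (C.pr_mem x)).1 (Φ.O_mem x _)]
  congr 1
  show ∑ b, (Φ.fr.om i k b).1 x * v b = _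
  conv_rhs => rw [dO_apply, ← sum_ε v, map_sum, sum_inner]
  refine Finset.sum_congr rfl fun b _ => ?_
  rw [fr_om, map_smul, inner_smul_left, dO_apply]
  simp [mul_comm]

lemma gauss (x : Euc n) (i : Fin n) (v : Euc n) : Φ.dO x (Φ.E x (ε i)) v =
    Φ.O x (Φ.fr.omv i x v) + II G (C.pr x) (Φ.O x (ε i)) (Φ.O x v) := by
  rw [O_omv, ← Φ.pr_E x (ε i)]; exact Φ.dO_split x _ v

lemma omv_ε (i p q : Fin n) (x : Euc n) : Φ.fr.omv i x (ε q) p = (Φ.fr.om i p q).1 x := by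
  show ∑ b, (Φ.fr.om i p b).1 x * (ε q : Euc n) b = _
  simp

lemma inner_dO_dO (x : Euc n) (i j p q : Fin n) :
    ⟪Φ.dO x (Φ.E x (ε j)) (ε q), Φ.dO x (Φ.E x (ε i)) (ε p)⟫ =
      ∑ c, (Φ.fr.om j c q).1 x * (Φ.fr.om i c p).1 x +
      ⟪II G (C.pr x) (Φ.O x (ε j)) (Φ.O x (ε q)), II G (C.pr x) (Φ.O x (ε i)) (Φ.O x (ε p))⟫ := by
  have hx := C.pr_mem x
  rw [gauss, gauss, inner_add_left, inner_add_right, inner_add_right, Φ.inner_O,
    inner_II G hx (Φ.O_mem _ _) (Φ.O_mem _ _) (Φ.O_mem _ _), real_inner_comm,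
    real_inner_comm (II G _ _ _) (Φ.O x _),
    inner_II G hx (Φ.O_mem _ _) (Φ.O_mem _ _) (Φ.O_mem _ _), PiLp.inner_apply]
  simp only [omv_ε, add_zero, zero_add]
  congr 1

/-- derivative of the connection coefficients -/
lemma D_om (x : Euc n) (i j p q : Fin n) :
    (Φ.fr.alg.D i (Φ.fr.om j p q)).1 x =
      ⟪fderiv ℝ (fderiv ℝ fun y => Φ.O y (ε q)) x (Φ.E x (ε i)) (Φ.E x (ε j)) +
        Φ.dO x (fderiv ℝ (Φ.fr.e j) x (Φ.fr.e i x)) (ε q), Φ.O x (ε p)⟫ +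
      ⟪Φ.dO x (Φ.E x (ε j)) (ε q), Φ.dO x (Φ.E x (ε i)) (ε p)⟫ := by
  have h1 : DifferentiableAt ℝ (fderiv ℝ fun y => Φ.O y (ε q)) x :=
    ((Φ.col_sm _).fderiv_right (m := ∞) (by simp)).differentiable (by simp) x
  have h2 : DifferentiableAt ℝ (fun y => Φ.E y (ε j)) x := (Φ.e_sm _).differentiable (by simp) x
  have h3 := (h1.hasFDerivAt.clm_apply h2.hasFDerivAt).inner ℝ (Φ.hasFDerivAt_col x (ε p))
  show fderiv ℝ (fun y => ⟪fderiv ℝ (fun y => Φ.O y (ε q)) y (Φ.E y (ε j)), Φ.O y (ε p)⟫) x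
    (Φ.E x (ε i)) = _
  rw [h3.fderiv]
  simp only [ContinuousLinearMap.comp_apply, ContinuousLinearMap.prod_apply,
    fderivInnerCLM_apply, add_apply, ContinuousLinearMap.flip_apply]
  rw [add_comm, add_comm (fderiv ℝ _ x _)]
  rfl

lemma gaussEq (x : Euc n) (i j p q : Fin n) : (Φ.fr.alg.Om i j p q).1 x =
    R4 G (C.pr x) (Φ.O x (ε i)) (Φ.O x (ε j)) (Φ.O x (ε q)) (Φ.O x (ε p)) := by
  have e : (Φ.fr.alg.Om i j p q).1 x =
      (Φ.fr.alg.D i (Φ.fr.om j p q)).1 x - (Φ.fr.alg.D j (Φ.fr.om i p q)).1 x +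
      ∑ c, ((Φ.fr.om i p c).1 x * (Φ.fr.om j c q).1 x -
        (Φ.fr.om j p c).1 x * (Φ.fr.om i c q).1 x) -
      ∑ k, ((Φ.fr.om i k j).1 x - (Φ.fr.om j k i).1 x) * (Φ.fr.om k p q).1 x := by
    rw [← Car.evx_apply]
    simp only [Car.AFr.Om, map_sub, map_add, map_sum, map_mul]
    rfl
  have hs : IsSymmSndFDerivAt ℝ (fun y => Φ.O y (ε q)) x :=
    (Φ.col_sm _).contDiffAt.isSymmSndFDerivAt (by
      rw [minSmoothness_of_isRCLikeNormedField]; exact WithTop.coe_le_coe.2 le_top)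
  have ht : ⟪Φ.dO x (fderiv ℝ (Φ.fr.e j) x (Φ.fr.e i x)) (ε q), Φ.O x (ε p)⟫ -
      ⟪Φ.dO x (fderiv ℝ (Φ.fr.e i) x (Φ.fr.e j x)) (ε q), Φ.O x (ε p)⟫ =
      ∑ k, ((Φ.fr.om i k j).1 x - (Φ.fr.om j k i).1 x) * (Φ.fr.om k p q).1 x := by
    rw [← inner_sub_left]
    unfold dO
    rw [← map_sub, Φ.fr.tors, map_sum, sum_inner]
    refine Finset.sum_congr rfl fun k _ => ?_
    rw [map_smul, real_inner_smul_left]
    rfl
  have sk : ∀ k c, (Φ.fr.om k p c).1 x = -(Φ.fr.om k c p).1 x := fun k c => by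
    rw [Φ.fr.skew k p c]; rfl
  rw [e, D_om, D_om, inner_dO_dO, inner_dO_dO, hs.eq (Φ.E x (ε i)), inner_add_left,
    inner_add_left, ← ht, R4, Finset.sum_sub_distrib]
  simp only [sk, neg_mul, Finset.sum_neg_distrib]
  rw [real_inner_comm (II G _ (Φ.O x (ε i)) (Φ.O x (ε p)))]
  have c1 : ∑ c, (Φ.fr.om j c q).1 x * (Φ.fr.om i c p).1 x =
      ∑ c, (Φ.fr.om i c p).1 x * (Φ.fr.om j c q).1 x := Finset.sum_congr rfl fun c _ => mul_comm _ _
  have c2 : ∑ c, (Φ.fr.om i c q).1 x * (Φ.fr.om j c p).1 x =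
      ∑ c, (Φ.fr.om j c p).1 x * (Φ.fr.om i c q).1 x := Finset.sum_congr rfl fun c _ => mul_comm _ _
  rw [c1, c2]
  ring

lemma fderiv_up {F : Euc n → Euc N → ℝ} {x v : Euc n}
    (hF : DifferentiableAt ℝ (uncurry F) (x, Φ.O x v)) (z u : Euc n) :
    fderiv ℝ (uncurry (Φ.up F)) (x, v) (z, u) =
      fderiv ℝ (uncurry F) (x, Φ.O x v) (z, Φ.dO x z v + Φ.O x u) := by
  have h1 : HasFDerivAt (fun q : Euc n × Euc n => Φ.O q.1)
      ((fderiv ℝ Φ.O x).comp (ContinuousLinearMap.fst ℝ _ _)) (x, v) :=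
    (Φ.diff_O x).hasFDerivAt.comp (x, v) hasFDerivAt_fst
  have h2 := (hasFDerivAt_fst (𝕜 := ℝ) (p := (x, v))).prodMk
    (h1.clm_apply (hasFDerivAt_snd (𝕜 := ℝ) (p := (x, v))))
  have h3 := HasFDerivAt.comp (x, v) (g := uncurry F) hF.hasFDerivAt h2
  have e : uncurry (Φ.up F) = uncurry F ∘ fun q : Euc n × Euc n => (q.1, Φ.O q.1 q.2) := rfl
  rw [e, h3.fderiv, dO_apply]
  simp [add_comm]

lemma nabU_up {F : Euc n → Euc N → ℝ} {x v : Euc n}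
    (hF : DifferentiableAt ℝ (uncurry F) (x, Φ.O x v)) (i : Fin n) :
    Φ.fr.nabU i (Φ.up F) x v = fderiv ℝ (uncurry F) (x, Φ.O x v)
      (Φ.E x (ε i), II G (C.pr x) (Φ.O x (ε i)) (Φ.O x v)) := by
  unfold Car.Fr.nabU
  rw [Φ.fderiv_up hF, fr_e, gauss, map_neg]
  congr 2
  abel

lemma O_sum (x v : Euc n) : Φ.O x v = ∑ i, v i • Φ.O x (ε i) := by
  conv_lhs => rw [← sum_ε v, map_sum]
  simp only [map_smul]

lemma II_sum (x v : Euc n) (w : Euc N) :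
    II G (C.pr x) (Φ.O x v) w = ∑ i, v i • II G (C.pr x) (Φ.O x (ε i)) w := by
  unfold II
  rw [O_sum, map_sum, sum_apply]
  simp only [map_smul, smul_apply]

lemma deriv_gd (x v : Euc n) : deriv (C.gd x (Φ.O x v)) 0 = Φ.E x v := by
  apply C.fderiv_pr_inj x
  have h := C.fderiv_pr_deriv_gd (Φ.O_mem x v) 0
  rw [C.gd_zero, C.vel_zero] at h
  rw [h, Φ.pr_E]

lemma hasDerivAt_flow {F : Euc n → Euc N → ℝ} {x v : Euc n}
    (hF : DifferentiableAt ℝ (uncurry F) (x, Φ.O x v)) :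
    HasDerivAt (fun t => F (C.gd x (Φ.O x v) t) (C.vel x (Φ.O x v) t))
      (Φ.fr.XU (Φ.up F) x v) 0 := by
  have h1 := C.hasDerivAt_gd x (Φ.O x v) 0
  rw [deriv_gd] at h1
  have h2 : HasDerivAt (C.vel x (Φ.O x v)) (II G (C.pr x) (Φ.O x v) (Φ.O x v)) 0 := by
    have h := hda_snd (hasDerivAt_fl G
      (complete G (q := (C.pr x, Φ.O x v)) ⟨C.pr_mem x, Φ.O_mem x v⟩ 0))
    rw [fl_zero] at h
    exact h
  have h3 : HasFDerivAt (uncurry F) (fderiv ℝ (uncurry F) (x, Φ.O x v))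
      (C.gd x (Φ.O x v) 0, C.vel x (Φ.O x v) 0) := by
    rw [C.gd_zero, C.vel_zero]; exact hF.hasFDerivAt
  refine (h3.comp_hasDerivAt (0 : ℝ) (h1.prodMk h2)).congr_deriv ?_
  unfold Car.Fr.XU
  simp only [Φ.nabU_up hF, ← smul_eq_mul, ← map_smul]
  rw [← map_sum]
  congr 1
  refine Prod.ext ?_ ?_
  · rw [Prod.fst_sum]
    simp only [Prod.smul_fst, ← map_smul]
    rw [← map_sum, sum_ε]
  · rw [Prod.snd_sum]
    exact Φ.II_sum x v _

end Frm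

theorem frmS : FrmS := fun _ _ _ _ _ _ Φ =>
  ⟨Φ.gauss, Φ.gaussEq, fun _ x v hF => ⟨Φ.nabU_up hF, fun z => by
    rw [Φ.fderiv_up hF]; simp [Frm.dO], Φ.hasDerivAt_flow hF⟩⟩

end Crest.Agent.N221
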