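import Crest.Agent.N221.Car.BrDefs

/-!
Row 221, block `Car` (helper62): a global orthonormal frame of the cover, by radial parallel transport.
-/

set_option autoImplicit false

open MeasureTheory Set Function
open scoped ContDiff RealInnerProductSpace
open Crest.GeometryTopology.Submanifold
open Crest.Agent.R241.DDefs Crest.Agent.R241.D2
open Crest.Agent.R208.J Crest.Agent.R208.L

noncomputable section

namespace Crest.Agent.N221

theorem isUnit_adj_comp {n N : ℕ} {D : Euc n →L[ℝ] Euc N} (h : Injective D) :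
    IsUnit (D.adjoint ∘L D) := by
  have h1 : Injective (D.adjoint ∘L D) := by
    refine (injective_iff_map_eq_zero _).2 fun u hu => (injective_iff_map_eq_zero D).1 h u ?_
    have h2 : ⟪D u, D u⟫ = 0 := by
      rw [← ContinuousLinearMap.adjoint_inner_left, ← ContinuousLinearMap.comp_apply, hu,
        inner_zero_left]
    exact inner_self_eq_zero.1 h2
  exact ContinuousLinearMap.isUnit_iff_bijective.2
    ⟨h1, (LinearMap.injective_iff_surjective (f := (D.adjoint ∘L D).toLinearMap)).1 h1⟩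

theorem frmExS : FrmExS := by
  intro n N a S G C
  obtain ⟨A, hA⟩ := C.lg_zero
  have hq : ∀ x, (C.pr 0, C.lg 0 x) ∈ TS G := fun x => ⟨C.pr_mem 0, C.lg_mem 0 x⟩
  let O : Euc n → Euc n →L[ℝ] Euc N := fun x => PT G (C.pr 0, C.lg 0 x) 1 ∘L A.toContinuousLinearMap
  have O_sm : ContDiff ℝ ∞ O := by
    refine ContDiff.clm_comp (contDiff_iff_contDiffAt.2 fun x => ?_) contDiff_const
    have h1 : ContDiff ℝ ∞ fun y : Euc n => C.lg 0 y :=
      C.lg_smooth.comp (contDiff_const.prodMk contDiff_id)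
    have h2 : ContDiff ℝ ∞ fun y : Euc n => ((C.pr 0, C.lg 0 y), (1 : ℝ)) :=
      (contDiff_const.prodMk h1).prodMk contDiff_const
    exact ContDiffAt.comp (g := fun z : (Euc N × Euc N) × ℝ => PT G z.1 z.2) x
      (contDiffAt_PT (hq x) 1) h2.contDiffAt
  have O_mem : ∀ x v, O x v ∈ G.T (C.pr x) := fun x v => by
    have h1 := PT_mem (hq x) 1 (a := A v) (hA v ▸ C.lg_mem 0 v)
    have h2 := C.pr_ex 0 _ (C.lg_mem 0 x)
    rw [C.ex_lg] at h2
    rw [h2]
    exact h1
  have D_sm : ContDiff ℝ ∞ (fderiv ℝ C.pr) := C.pr_smooth.fderiv_right (m := ∞) (by simp)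
  have Dt_sm : ContDiff ℝ ∞ fun x => (fderiv ℝ C.pr x).adjoint :=
    (ContinuousLinearMap.adjoint (𝕜 := ℝ) (E := Euc n)
      (F := Euc N)).toContinuousLinearEquiv.contDiff.comp D_sm
  have U : ∀ x, IsUnit ((fderiv ℝ C.pr x).adjoint ∘L fderiv ℝ C.pr x) := fun x =>
    isUnit_adj_comp (C.fderiv_pr_inj x)
  refine ⟨⟨O, fun x => Ring.inverse ((fderiv ℝ C.pr x).adjoint ∘L fderiv ℝ C.pr x) ∘L
    ((fderiv ℝ C.pr x).adjoint ∘L O x), O_sm, ?_, fun x v w => ?_, fun x v => ?_⟩⟩
  · refine ContDiff.clm_comp (contDiff_iff_contDiffAt.2 fun x => ?_) (Dt_sm.clm_comp O_sm)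
    exact ContDiffAt.comp (g := Ring.inverse) x (contDiffAt_ringInverse ℝ (U x).unit)
      (Dt_sm.clm_comp D_sm).contDiffAt
  · exact (inner_PT (hq x) 1 _ _).trans (A.inner_map_map v w)
  · obtain ⟨u, hu⟩ := C.fderiv_pr_surj x (O_mem x v)
    have h1 := congrArg (fun L : Euc n →L[ℝ] Euc n => L u) (Ring.inverse_mul_cancel _ (U x))
    rw [ContinuousLinearMap.comp_apply, ContinuousLinearMap.comp_apply, ← hu]
    exact congrArg _ h1

end Crest.Agent.N221
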