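import Crest.Agent.N221.Car.Defs

/-! Row 221, block `Car`: existence, uniqueness and linear rules for `Rep` (helper61). -/

set_option autoImplicit false
set_option maxHeartbeats 400000

open MvPolynomial MeasureTheory Function
open scoped ContDiff RealInnerProductSpace
open Crest.Agent.R086 Crest.Agent.R086.SH

noncomputable section

namespace Crest.Agent.N221.Car

variable {n : ℕ}

namespace R1

/-! ### integrals over the sphere with a parameter -/

section par

variable {U : EE n → EE n → ℝ}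

/-- derivative in the base point -/
def dU (y : EE n) (U : EE n → EE n → ℝ) (x v : EE n) : ℝ := fderiv ℝ (uncurry U) (x, v) (y, 0)

lemma smU_dU (hU : SmU U) (y : EE n) : SmU (dU y U) :=
  (ContDiff.fderiv_right hU (m := ∞) (by simp)).clm_apply contDiff_const

lemma smU_mul (hU : SmU U) (p : P0 n) : SmU fun x w => U x w * pfun p w :=
  ContDiff.mul hU (((contDiff_pfun p).of_le le_top).comp contDiff_snd)

lemma cont_slice (hU : SmU U) (x : EE n) : Continuous (U x) :=
  (ContDiff.continuous hU).comp (Continuous.prodMk_right x)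

lemma int_sph {E : Type} [NormedAddCommGroup E] {g : EE n → E} (hg : Continuous g) :
    Integrable (fun w : Sph n => g w) (sg n) :=
  (hg.comp continuous_subtype_val).integrable_of_hasCompactSupport
    (HasCompactSupport.of_compactSpace _)

lemma int_mul (hU : SmU U) (x : EE n) (p : P0 n) :
    Integrable (fun w : Sph n => U x w * pfun p w) (sg n) :=
  int_sph (cont_slice (smU_mul hU p) x)

lemma hasFDerivAt_sI (hU : SmU U) (x : EE n) : HasFDerivAt (fun x => sI (U x))
    (∫ w : Sph n, (fderiv ℝ (uncurry U) (x, w)).comp (ContinuousLinearMap.inl ℝ _ _) ∂(sg n)) x := by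
  have hc : Continuous fun z : EE n × EE n =>
      (fderiv ℝ (uncurry U) z).comp (ContinuousLinearMap.inl ℝ (EE n) (EE n)) :=
    (ContDiff.continuous_fderiv hU (by simp)).clm_comp continuous_const
  obtain ⟨C, hC⟩ := ((isCompact_closedBall x 1).prod
    (isCompact_sphere (0 : EE n) 1)).exists_bound_of_continuousOn hc.continuousOn
  refine hasFDerivAt_integral_of_dominated_of_fderiv_le (F := fun x (w : Sph n) => U x w)
    (F' := fun x (w : Sph n) => (fderiv ℝ (uncurry U) (x, w)).comp (ContinuousLinearMap.inl ℝ _ _))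
    (bound := fun _ => C) (Metric.closedBall_mem_nhds x one_pos)
    (.of_forall fun y => (int_sph (cont_slice hU y)).1) (int_sph (cont_slice hU x))
    (int_sph (hc.comp (Continuous.prodMk_right x))).1
    (.of_forall fun w y hy => hC (y, w) ⟨hy, w.2⟩) (integrable_const C)
    (.of_forall fun w y _ => ?_)
  have h1 := (ContDiff.differentiable hU (by simp) (y, (w : EE n))).hasFDerivAt
  exact HasFDerivAt.comp y (f := fun e : EE n => (e, (w : EE n))) h1
    (hasFDerivAt_prodMk_left y (w : EE n))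

lemma fderiv_sI (hU : SmU U) (x y : EE n) :
    fderiv ℝ (fun x => sI (U x)) x y = sI (dU y U x) := by
  have hc : Continuous fun z : EE n × EE n =>
      (fderiv ℝ (uncurry U) z).comp (ContinuousLinearMap.inl ℝ (EE n) (EE n)) :=
    (ContDiff.continuous_fderiv hU (by simp)).clm_comp continuous_const
  rw [(hasFDerivAt_sI hU x).fderiv]
  exact ContinuousLinearMap.integral_apply (int_sph (hc.comp (Continuous.prodMk_right x))) y

lemma contDiff_sI (hU : SmU U) : ContDiff ℝ ∞ fun x => sI (U x) := by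
  rw [contDiff_infty]
  intro k
  induction k generalizing U with
  | zero =>
    exact contDiff_zero.2 (Differentiable.continuous fun x => (hasFDerivAt_sI hU x).differentiableAt)
  | succ k ih =>
    rw [Nat.cast_succ, contDiff_succ_iff_fderiv_apply]
    refine ⟨fun x => (hasFDerivAt_sI hU x).differentiableAt, by simp, fun y => ?_⟩
    simp only [fderiv_sI hU]
    exact ih (smU_dU hU y)

end par

lemma sI_congr {g g' : EE n → ℝ} (h : ∀ v, ‖v‖ = 1 → g v = g' v) : sI g = sI g' :=
  integral_congr_ae (.of_forall fun w => h w (by simp))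

/-! ### evaluation -/

lemma coeff_ax (x : EE n) (P : PP n) (s : Fin n →₀ ℕ) : coeff s (ax x P) = (coeff s P).1 x :=
  coeff_map _ _ _

lemma ax_add (x : EE n) (P Q : PP n) : ax x (P + Q) = ax x P + ax x Q := map_add _ _ _
lemma ax_sub (x : EE n) (P Q : PP n) : ax x (P - Q) = ax x P - ax x Q := map_sub _ _ _
lemma ax_mul (x : EE n) (P Q : PP n) : ax x (P * Q) = ax x P * ax x Q := map_mul _ _ _
lemma ax_X (x : EE n) (i : Fin n) : ax x (X i) = X i := map_X _ _
lemma ax_sum {ι : Type} (x : EE n) (s : Finset ι) (P : ι → PP n) :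
    ax x (∑ a ∈ s, P a) = ∑ a ∈ s, ax x (P a) := map_sum _ _ _

lemma ax_smul (x : EE n) (c : ℝ) (P : PP n) : ax x (c • P) = c • ax x P := by
  ext s
  rw [coeff_smul, coeff_ax, coeff_ax, coeff_smul]
  rfl

lemma ax_C_mul (x : EE n) (φ : Sm n) (P : PP n) : ax x (C φ * P) = φ.1 x • ax x P := by
  rw [ax_mul, smul_eq_C_mul]
  congr 1
  exact map_C _ _

lemma ax_pderiv (x : EE n) (i : Fin n) (P : PP n) : ax x (pderiv i P) = pderiv i (ax x P) :=
  pderiv_map.symm

lemma ax_rho (x : EE n) : ax x rhoA = rhoA := by simp [ax, rhoA]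

lemma ax_map (x : EE n) (p : P0 n) : ax x (map (algebraMap ℝ (Sm n)) p) = p := by
  ext s
  rw [coeff_ax, coeff_map]
  rfl

lemma ax_Mi (x : EE n) (l : ℕ) (i : Fin n) (P : PP n) : ax x (Mi l i P) = Mi l i (ax x P) := by
  rw [Mi, Mi, ax_sub, ax_mul, ax_X, ax_smul, ax_mul, ax_rho, ax_pderiv]

lemma fisA_ax (x : EE n) (P Q : PP n) : (fisA P Q).1 x = fis (ax x P) (ax x Q) := by
  rw [fis_eq_of_subset (ax x P) _ (support_map_subset (evx x) P), ← evx_apply, fisA, map_sum]
  refine Finset.sum_congr rfl fun s _ => ?_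
  rw [coeff_ax, coeff_ax, mul_assoc]
  rfl

lemma ax_ext {P Q : PP n} (h : ∀ x, ax x P = ax x Q) : P = Q := by
  ext s x
  rw [← coeff_ax, ← coeff_ax, h]

/-! ### harmonic polynomials -/

variable {l : ℕ} {p q : P0 n}

lemma harm_zero (l : ℕ) : Sph.Harm l (0 : P0 n) :=
  ⟨isHomogeneous_zero _ _ _, by simp [Sph.plap]⟩

lemma harm_add (hp : Sph.Harm l p) (hq : Sph.Harm l q) : Sph.Harm l (p + q) :=
  ⟨hp.hom.add hq.hom, (plap_add p q).trans (by
    rw [show plap p = 0 from hp.harm, show plap q = 0 from hq.harm, add_zero])⟩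

lemma harm_smul (c : ℝ) (hp : Sph.Harm l p) : Sph.Harm l (c • p) :=
  ⟨(homogeneousSubmodule (Fin n) ℝ l).smul_mem c hp.hom, (plap_smul c p).trans (by
    rw [show plap p = 0 from hp.harm, smul_zero])⟩

lemma harm_sub (hp : Sph.Harm l p) (hq : Sph.Harm l q) : Sph.Harm l (p - q) := by
  rw [sub_eq_add_neg, ← neg_one_smul ℝ q]
  exact harm_add hp (harm_smul _ hq)

lemma harm_sum {ι : Type} (s : Finset ι) (P : ι → P0 n) (h : ∀ a ∈ s, Sph.Harm l (P a)) :
    Sph.Harm l (∑ a ∈ s, P a) :=
  Finset.sum_induction P _ (fun _ _ => harm_add) (harm_zero l) h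

lemma fis_smul_left (c : ℝ) (p q : P0 n) : fis (c • p) q = c * fis p q := by
  rw [fis_eq_of_subset (c • p) q support_smul, fis, Finset.mul_sum]
  refine Finset.sum_congr rfl fun s _ => ?_
  rw [coeff_smul, smul_eq_mul]
  ring

lemma fis_sub_left (p p' q : P0 n) : fis (p - p') q = fis p q - fis p' q := by
  rw [sub_eq_add_neg, ← neg_one_smul ℝ p', fis_add_left, fis_smul_left]
  ring

lemma fis_Mi (l : ℕ) (i : Fin n) (p : P0 n) (hq : plap q = 0) :
    fis (Mi l i p) q = fis p (pderiv i q) := by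
  rw [Mi, fis_sub_left, fis_smul_left, fis_X_mul, show (rhoA : P0 n) = rho from rfl, fis_rho_mul,
    hq, fis_zero_right, mul_zero, sub_zero]

lemma fis_monomial (s : Fin n →₀ ℕ) (p : P0 n) : fis (monomial s 1) p = mfac s * coeff s p := by
  classical
  rw [fis_eq_of_subset _ p support_monomial_subset]
  simp

lemma harm_proj [NeZero n] (hq : q.IsHomogeneous l) :
    ∃ h : P0 n, Sph.Harm l h ∧ ∀ p, plap p = 0 → fis h p = fis q p := by
  rcases Nat.lt_or_ge l 2 with hl | hl
  · exact ⟨q, ⟨hq, plap_low hl hq⟩, fun _ _ => rfl⟩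
  · obtain ⟨k, rfl⟩ := Nat.exists_eq_add_of_le' hl
    obtain ⟨h, r, h1, h2, -, rfl⟩ := fischer_step hq
    exact ⟨h, ⟨h1, h2⟩, fun p hp => by rw [fis_add_left, fis_rho_mul, hp, fis_zero_right, add_zero]⟩

lemma pfun_smul (c : ℝ) (p : P0 n) (w : EE n) : pfun (c • p) w = c * pfun p w := by simp [pfun]

lemma hom_eq_sum (hp : p.IsHomogeneous l) :
    p = ∑ s ∈ Finset.finsuppAntidiag Finset.univ l, coeff s p • monomial s (1 : ℝ) := by
  simp only [smul_monomial, smul_eq_mul, mul_one]
  nth_rw 1 [p.as_sum]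
  refine Finset.sum_subset (fun s hs => ?_) fun s _ hs => ?_
  · rw [Finset.mem_finsuppAntidiag]
    refine ⟨?_, Finset.subset_univ _⟩
    by_contra h
    exact mem_support_iff.1 hs (hp.coeff_eq_zero (by rwa [Finsupp.degree_eq_sum]))
  · rw [notMem_support_iff.1 hs, map_zero]

lemma exists_rep [NeZero n] (l : ℕ) {U : EE n → EE n → ℝ} (hU : SmU U) : ∃ P, Rep l U P := by
  have H : ∀ s : Fin n →₀ ℕ, ∃ h : P0 n, Sph.Harm l h ∧ (s ∈ Finset.finsuppAntidiag Finset.univ l →
      ∀ p, plap p = 0 → fis h p = mfac s * coeff s p) := fun s => by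
    by_cases hs : s ∈ Finset.finsuppAntidiag Finset.univ l
    · obtain ⟨h, h1, h2⟩ := harm_proj (isHomogeneous_monomial (1 : ℝ)
        ((Finsupp.degree_eq_sum s).trans (Finset.mem_finsuppAntidiag.1 hs).1))
      exact ⟨h, h1, fun _ p hp => (h2 p hp).trans (fis_monomial s p)⟩
    · exact ⟨0, harm_zero l, fun h => absurd h hs⟩
  choose h h1 h2 using H
  let c : (Fin n →₀ ℕ) → Sm n := fun s =>
    ⟨fun x => (mfac s)⁻¹ * sI fun w => U x w * pfun (monomial s 1) w,
      ContDiff.mul contDiff_const (contDiff_sI (smU_mul hU _))⟩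
  refine ⟨∑ s ∈ Finset.finsuppAntidiag Finset.univ l, C (c s) * map (algebraMap ℝ (Sm n)) (h s),
    fun x => ?_⟩
  simp only [ax_sum, ax_C_mul, ax_map]
  refine ⟨harm_sum _ _ fun s _ => harm_smul _ (h1 s), fun p hp => ?_⟩
  rw [fis_sum_left]
  conv_rhs => rw [hom_eq_sum hp.hom]
  simp only [pfun_sum, pfun_smul, Finset.mul_sum, mul_left_comm (U x _)]
  rw [sI, integral_finsetSum _ fun s _ => (int_mul hU x _).const_mul _]
  refine Finset.sum_congr rfl fun s hs => ?_
  rw [fis_smul_left, h2 s hs p hp.harm, integral_const_mul]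
  show (mfac s)⁻¹ * (sI fun w => U x w * pfun (monomial s 1) w) * _ =
    _ * sI fun w => U x w * pfun (monomial s 1) w
  have := (mfac_pos s).ne'
  field_simp

end R1

open R1

theorem rep1S (h1 : Pol1S) (h2 : Pol2S) : Rep1S := by
  intro n hn
  have : NeZero n := ⟨by omega⟩
  have hs := (h1 n hn).1
  refine ⟨fisA_ax, fun _ _ => ax_ext, ax_Mi, fun l U => exists_rep l, ?_, ?_, ?_, ?_⟩
  · intro l U V P Q hP hQ x h
    have hd := harm_sub (hP x).1 (hQ x).1
    refine sub_eq_zero.1 (fis_self_eq_zero ?_)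
    rw [fis_sub_left, (hP x).2 _ hd, (hQ x).2 _ hd, sub_eq_zero]
    exact sI_congr fun v hv => by rw [h v hv]
  · intro l U P φ hP x
    rw [ax_C_mul]
    refine ⟨harm_smul _ (hP x).1, fun p hp => ?_⟩
    simp only [mul_assoc]
    rw [fis_smul_left, (hP x).2 p hp, sI, sI, integral_const_mul]
  · intro l ι s U P hU hP x
    rw [ax_sum]
    refine ⟨harm_sum _ _ fun a ha => (hP a ha x).1, fun p hp => ?_⟩
    simp only [Finset.sum_mul]
    rw [fis_sum_left, sI, integral_finsetSum _ fun a ha => int_mul (hU a ha) x p]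
    exact Finset.sum_congr rfl fun a ha => (hP a ha x).2 p hp
  · intro l i U P Q hU hP hQ x
    rw [ax_add, ax_smul, ax_pderiv, ax_Mi]
    refine ⟨harm_add ((h2 n hn (l + 1)).2.1 _ i (hQ x).1)
      (harm_smul _ ((h2 n hn l).1 _ i (hP x).1)), fun p hp => ?_⟩
    have e1 := (hQ x).2 _ ((h2 n hn (l + 1)).1 p i hp)
    have e2 := (hP x).2 _ ((h2 n hn l).2.1 p i hp)
    rw [hs, fis_Mi _ _ _ (hQ x).1.harm, hs] at e1
    rw [fis_add_left, fis_smul_left, fis_Mi _ _ _ hp.harm, e1, e2, sI, sI, ← integral_const_mul,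
      ← integral_add (int_mul hU x _) ((int_mul hU x _).const_mul _)]
    refine integral_congr_ae (.of_forall fun w => ?_)
    have e3 : pfun (Mi (l + 1) i p) w = w.1 i * pfun p w -
        ((n : ℝ) + 2 * l)⁻¹ * pfun (pderiv i p) w := by
      have e4 : (n : ℝ) + 2 * (l + 1 : ℕ) - 2 = n + 2 * l := by push_cast; ring
      rw [Mi, e4, sub_eq_add_neg, ← neg_smul, pfun_add, pfun_smul, pfun_mul, pfun_mul,
        show (rhoA : P0 n) = rho from rfl, pfun_rho_sph, show pfun (X i) w.1 = w.1 i by simp [pfun]]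
      ring
    simp only [e3]
    ring

end Crest.Agent.N221.Car
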