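import Crest.Agent.N221.Car.BrDefs
import Crest.Agent.N221.Car.Rep1

/-!
Row 221, block `Car` (helper34): finite degree on the cover.
-/

set_option autoImplicit false

open MeasureTheory Set Function
open scoped ContDiff RealInnerProductSpace
open Crest.GeometryTopology.Submanifold
open Crest.Agent.R241.DDefs Crest.Agent.R241.D2
open Crest.Agent.R208.J Crest.Agent.R208.L
open Crest.Agent.R086 Crest.Agent.R086.SH

noncomputable section

namespace Crest.Agent.N221

namespace Frm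

variable {n N : ℕ} {a : ℝ} {S : Set (Euc N)} {G : Geo n N (-(a ^ 2)) S} {C : Cov G} (Φ : Frm C)

/-- change of frame between two points over the same point of `S` -/
lemma exists_rot {x y : Euc n} (h : C.pr y = C.pr x) :
    ∃ R : Euc n ≃ₗᵢ[ℝ] Euc n, ∀ v, Φ.O y (R v) = Φ.O x v := by
  have h1 : ∀ v, Φ.O y ((Φ.O y).adjoint (Φ.O x v)) = Φ.O x v := by
    intro v
    obtain ⟨u, hu⟩ := Φ.O_surj y (h ▸ Φ.O_mem x v)
    rw [← hu]
    congr 1
    refine ext_inner_right ℝ fun b => ?_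
    rw [ContinuousLinearMap.adjoint_inner_left, Φ.inner_O]
  let R0 : Euc n →ₗᵢ[ℝ] Euc n :=
    ⟨((Φ.O y).adjoint.comp (Φ.O x)).toLinearMap, fun v => by
      rw [← Φ.norm_O y, ← Φ.norm_O x v]; exact congrArg norm (h1 v)⟩
  exact ⟨R0.toLinearIsometryEquiv rfl, h1⟩

lemma contDiffAt_up {F : Euc n → Euc N → ℝ} {x v : Euc n}
    (hF : ContDiffAt ℝ ∞ (uncurry F) (x, Φ.O x v)) : ContDiffAt ℝ ∞ (uncurry (Φ.up F)) (x, v) := by
  have h : ContDiff ℝ ∞ fun q : Euc n × Euc n => (q.1, Φ.O q.1 q.2) :=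
    contDiff_fst.prodMk ((Φ.O_sm.comp contDiff_fst).clm_apply contDiff_snd)
  exact ContDiffAt.comp (g := uncurry F) (x, v) hF h.contDiffAt

end Frm

lemma pfun_lc {n : ℕ} {ι : Type} (s : Finset ι) (c : ι → ℝ) (p : ι → Car.P0 n) (v : Euc n) :
    pfun (∑ i ∈ s, c i • p i) v = ∑ i ∈ s, c i * pfun (p i) v := by
  simp [pfun]

theorem finS (hC : Car.CarS) (hF : FrmS) (hG : GoodS) : FinS := by
  intro n N a S G C Φ H V _ _ _ L k hsm hX hD
  classical
  let b := Module.finBasis ℝ V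
  let u : Fin (Module.finrank ℝ V) → Euc n → Euc n → ℝ := fun i => Φ.up (L (b i))
  have hL : ∀ y x w, L y x w = ∑ i, b.repr y i * L (b i) x w := by
    intro y x w
    conv_lhs => rw [← b.sum_repr y, map_sum]
    simp [Finset.sum_apply]
  obtain ⟨D, P, hP, hu⟩ := hC n H.hn Φ.fr C.vol (a ^ 2) (hG n N a S G C Φ H) _ u k
    (fun i x v hv => Φ.contDiffAt_up (hsm _ _ _ (Φ.un hv)))
    (fun i x v hv => (((hF n N a S G C Φ).2.2 (L (b i)) x v
      ((hsm _ _ _ (Φ.un hv)).differentiableAt (by simp))).2.2).unique (hX _ _ _ (Φ.un hv)))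
    (by
      obtain ⟨R, -, hR⟩ := C.exists_deck
      refine ⟨R + 1, fun x => ?_⟩
      obtain ⟨g', hg', hx⟩ := hR x
      obtain ⟨g, hg, h1, h2⟩ := Cov.Deck.inv C hg'
      choose O hO using fun z => Φ.exists_rot (hg.pr_eq z)
      choose y' hy' using hD g hg
      refine ⟨⟨⟨⟨g, g', h2, h1⟩, hg.smooth.continuous, hg'.smooth.continuous⟩,
        ⟨hg.smooth.continuous.measurable, Cov.Deck.map_vol C H hg⟩, O,
        fun i j => b.repr (y' (b i)) j, fun i z v hv => ?_⟩, g' x, by linarith, h1 x⟩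
      show L (b i) (g z) (Φ.O (g z) (O z v)) = _
      rw [hO, hy' _ _ _ (Φ.un hv), hL]
      rfl)
  let Q : Fin (Module.finrank ℝ V) → ℕ → Car.PP n := fun i l => if l < D then P i l else 0
  have hQ : ∀ y l, b.constr ℝ Q y l = ∑ i, b.repr y i • Q i l := by
    intro y l
    rw [Module.Basis.constr_apply_fintype]
    simp [Finset.sum_apply]
  refine ⟨D, b.constr ℝ Q, fun y l x => ?_, fun y l hl => ?_, fun y x v hv => ?_⟩
  · rw [hQ, Car.Co.ax_sum]
    simp only [Car.Co.ax_smul]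
    refine Car.R1.harm_sum _ _ fun i _ => Car.R1.harm_smul _ ?_
    by_cases hl : l < D
    · simp only [Q, if_pos hl]; exact hP i l x
    · simpa [Q, if_neg hl, Car.ax] using Car.R1.harm_zero (n := n) l
  · rw [hQ]
    simp [Q, if_neg (not_lt.2 hl)]
  · rw [hL]
    simp only [hQ, Car.Co.ax_sum, Car.Co.ax_smul, pfun_lc]
    rw [Finset.sum_comm]
    refine Finset.sum_congr rfl fun i _ => ?_
    rw [← Finset.mul_sum]
    congr 1
    refine (hu i x v hv).trans (Finset.sum_congr rfl fun l hl => ?_)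
    simp only [Q, if_pos (Finset.mem_range.1 hl)]

end Crest.Agent.N221
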