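import Crest.Agent.N221.Car.BrDefs

/-!
Row 221, block `Car`: the frame model of the cover is `Good` (helper43).
-/

set_option autoImplicit false

open MeasureTheory Set Function
open scoped ContDiff RealInnerProductSpace
open Crest.GeometryTopology.Submanifold
open Crest.Agent.R241.DDefs Crest.Agent.R241.D2
open Crest.Agent.R208.J Crest.Agent.R208.L
open Crest.Agent.R086 Crest.Agent.R086.SH

noncomputable section

namespace Crest.Agent.N221

namespace BrG

variable {n N : ℕ} {a : ℝ} {S : Set (Euc N)} {G : Geo n N (-(a ^ 2)) S} {C : Cov G} (Φ : Frm C)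

lemma jac_det (x : Euc n) :
    Crest.Agent.R241.AF.jac (fderiv ℝ C.pr x) * |(Φ.E x).det| = 1 := by
  rw [← Cov.Pol.jac_comp]
  have e : (fderiv ℝ C.pr x).comp (Φ.E x) = Φ.O x := by
    ext1 v; exact Φ.pr_E x v
  rw [e]
  exact jac_isometry _ (Φ.inner_O x)

lemma det_ne (x : Euc n) : (Φ.E x).det ≠ 0 := by
  intro h
  have := jac_det Φ x
  rw [h, abs_zero, mul_zero] at this
  exact zero_ne_one this

lemma jac_eq (x : Euc n) :
    Crest.Agent.R241.AF.jac (fderiv ℝ C.pr x) = |(Φ.E x).det|⁻¹ :=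
  eq_inv_of_mul_eq_one_left (jac_det Φ x)

lemma O_sum (x v : Euc n) : Φ.O x v = ∑ i, v i • Φ.O x (Frm.ε i) := by
  conv_lhs => rw [← Frm.sum_ε v]
  simp only [map_sum, map_smul]

lemma R4_1 (x v : Euc n) (p Y Z W : Euc N) :
    R4 G p (Φ.O x v) Y Z W = ∑ i, v i * R4 G p (Φ.O x (Frm.ε i)) Y Z W := by
  rw [O_sum Φ x v]
  simp only [R4, II, map_sum, map_smul, sum_apply, smul_apply, sum_inner, real_inner_smul_left,
    mul_sub, Finset.sum_sub_distrib]

lemma R4_2 (x v : Euc n) (p X Z W : Euc N) :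
    R4 G p X (Φ.O x v) Z W = ∑ i, v i * R4 G p X (Φ.O x (Frm.ε i)) Z W := by
  rw [O_sum Φ x v]
  simp only [R4, II, map_sum, map_smul, sum_apply, smul_apply, inner_sum, real_inner_smul_right,
    mul_sub, Finset.sum_sub_distrib]

lemma R4_3 (x v : Euc n) (p X Y W : Euc N) :
    R4 G p X Y (Φ.O x v) W = ∑ i, v i * R4 G p X Y (Φ.O x (Frm.ε i)) W := by
  rw [O_sum Φ x v]
  simp only [R4, II, map_sum, map_smul, sum_inner, inner_sum, real_inner_smul_left,
    real_inner_smul_right, mul_sub, Finset.sum_sub_distrib]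

lemma R4_4 (x v : Euc n) (p X Y Z : Euc N) :
    R4 G p X Y Z (Φ.O x v) = ∑ i, v i * R4 G p X Y Z (Φ.O x (Frm.ε i)) := by
  rw [O_sum Φ x v]
  simp only [R4, II, map_sum, map_smul, sum_inner, inner_sum, real_inner_smul_left,
    real_inner_smul_right, mul_sub, Finset.sum_sub_distrib]

lemma R4_sum (x v w : Euc n) :
    ∑ i, ∑ j, ∑ p, ∑ q, R4 G (C.pr x) (Φ.O x (Frm.ε i)) (Φ.O x (Frm.ε j)) (Φ.O x (Frm.ε q))
      (Φ.O x (Frm.ε p)) * (v i * w j * w p * v q) =
    R4 G (C.pr x) (Φ.O x v) (Φ.O x w) (Φ.O x v) (Φ.O x w) := by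
  rw [R4_1]
  refine Finset.sum_congr rfl fun i _ => ?_
  rw [R4_2 Φ x w, Finset.mul_sum]
  refine Finset.sum_congr rfl fun j _ => ?_
  rw [R4_4 Φ x w, Finset.mul_sum, Finset.mul_sum]
  refine Finset.sum_congr rfl fun p _ => ?_
  rw [R4_3 Φ x v, Finset.mul_sum, Finset.mul_sum, Finset.mul_sum]
  refine Finset.sum_congr rfl fun q _ => ?_
  ring

end BrG

theorem goodS (hI : IbpS) (hF : FrmS) : GoodS := by
  intro n N a S G C Φ H
  refine ⟨inferInstance, ?_, ?_, pow_pos H.a_pos 2, ?_⟩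
  · exact (Measure.absolutelyContinuous_of_le C.volume_le_vol).isOpenPosMeasure
  · intro i φ hφ
    have h := hI n Φ.fr Φ.E Φ.E_sm (fun _ _ => rfl) (BrG.det_ne Φ) i φ hφ
    rw [Cov.vol, integral_withDensity_eq_integral_toReal_smul C.continuous_dens.measurable
      (.of_forall fun _ => ENNReal.ofReal_lt_top), ← h]
    refine integral_congr_ae (.of_forall fun x => ?_)
    simp only [smul_eq_mul]
    rw [ENNReal.toReal_ofReal (Crest.Agent.R241.AF.jac_nonneg _), BrG.jac_eq Φ, mul_comm]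
  · intro x v w
    simp only [(hF n N a S G C Φ).2.1]
    rw [BrG.R4_sum Φ x v w]
    have h := G.curv _ (C.pr_mem x) _ (Φ.O_mem x v) _ (Φ.O_mem x w)
    rw [Φ.norm_O, Φ.norm_O, Φ.inner_O] at h
    rw [R4, II_symm G (C.pr_mem x) (Φ.O_mem x w) (Φ.O_mem x v), real_inner_self_eq_norm_sq]
    unfold II
    linarith

end Crest.Agent.N221
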