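import Crest.Agent.N221.Car.BrDefs
import Crest.Agent.N221.U.Ju

/-! Row 221, block `Car`: the divergence of the frame fields (helper88). -/

set_option autoImplicit false

open MeasureTheory Set Function
open scoped ContDiff RealInnerProductSpace
open Crest.GeometryTopology.Submanifold

noncomputable section

namespace Crest.Agent.N221

namespace Ibp

variable {n : ℕ}

theorem contDiff_det : ContDiff ℝ ∞ (fun T : Op n => T.det) := by
  have h : (fun T : Op n => T.det) = fun T => ∑ σ : Equiv.Perm (Fin n),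
      ((Equiv.Perm.sign σ : ℤ) : ℝ) * ∏ k, T (EuclideanSpace.single k 1) (σ k) := by
    funext T
    change LinearMap.det (T : Euc n →ₗ[ℝ] Euc n) = _
    rw [← LinearMap.det_toMatrix (EuclideanSpace.basisFun (Fin n) ℝ).toBasis, Matrix.det_apply']
    simp [LinearMap.toMatrix_apply]
  rw [h]
  refine ContDiff.sum fun σ _ => contDiff_const.mul (contDiff_prod fun k _ => ?_)
  exact (EuclideanSpace.proj (𝕜 := ℝ) (σ k)).contDiff.comp
    (contDiff_id.clm_apply (contDiff_const (c := (EuclideanSpace.single k (1 : ℝ) : Euc n))))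

theorem tr_eq (A : Op n) : LinearMap.trace ℝ (Euc n) (A : Euc n →ₗ[ℝ] Euc n) =
    ∑ j, A (EuclideanSpace.single j 1) j := by
  rw [LinearMap.trace_eq_matrix_trace ℝ (EuclideanSpace.basisFun (Fin n) ℝ).toBasis]
  simp [Matrix.trace, LinearMap.toMatrix_apply]

theorem tr_conj (L : Euc n ≃L[ℝ] Euc n) (A : Op n) :
    ∑ j, L.symm (A (L (EuclideanSpace.single j 1))) j = ∑ j, A (EuclideanSpace.single j 1) j := by
  have h1 := tr_eq ((L.symm : Op n) ∘L (A ∘L (L : Op n)))
  have h2 := LinearMap.trace_comp_comm' ((A ∘L (L : Op n) : Op n) : Euc n →ₗ[ℝ] Euc n)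
    ((L.symm : Op n) : Euc n →ₗ[ℝ] Euc n)
  have h3 : ((A ∘L (L : Op n) : Op n) : Euc n →ₗ[ℝ] Euc n) ∘ₗ
      ((L.symm : Op n) : Euc n →ₗ[ℝ] Euc n) = A := by ext1 v; simp
  rw [h3, tr_eq A] at h2
  exact h1.symm.trans h2

/-- the integral of a divergence -/
theorem int_div {Y : Euc n → Euc n} (hY : ContDiff ℝ ∞ Y) (hc : HasCompactSupport Y) :
    ∫ x, ∑ k, fderiv ℝ Y x (EuclideanSpace.single k 1) k = 0 := by
  have hg : ∀ k, ContDiff ℝ ∞ fun x => Y x k := fun k =>
    (EuclideanSpace.proj (𝕜 := ℝ) k).contDiff.comp hY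
  have hs : ∀ k, HasCompactSupport fun x => Y x k := fun k =>
    hc.comp_left (g := fun v : Euc n => v k) rfl
  have e : ∀ k x, fderiv ℝ Y x (EuclideanSpace.single k 1) k =
      fderiv ℝ (fun x => Y x k) x (EuclideanSpace.single k 1) := fun k x =>
    (congrArg (fun L : Euc n →L[ℝ] ℝ => L (EuclideanSpace.single k 1))
      ((EuclideanSpace.proj (𝕜 := ℝ) k).hasFDerivAt.comp x
        (hY.differentiable (by simp) x).hasFDerivAt).fderiv).symm
  have hi : ∀ k, Integrable fun x => fderiv ℝ (fun x => Y x k) x (EuclideanSpace.single k 1) :=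
    fun k => (((hg k).continuous_fderiv (by simp)).clm_apply
      continuous_const).integrable_of_hasCompactSupport ((hs k).fderiv_apply ℝ _)
  simp only [e]
  rw [integral_finsetSum _ fun k _ => hi k]
  refine Finset.sum_eq_zero fun k _ => ?_
  have := integral_mul_fderiv_eq_neg_fderiv_mul_of_integrable (μ := volume) (f := fun _ => (1 : ℝ))
    (g := fun x => Y x k) (v := EuclideanSpace.single k 1) (by simp) (by simpa using hi k)
    (by simpa using (hg k).continuous.integrable_of_hasCompactSupport (hs k))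
    (fun x _ => differentiableAt_const _) fun x _ => (hg k).differentiable (by simp) x
  simpa using this

/-- Jacobi's formula for the density -/
theorem fderiv_rho {E : Euc n → Op n} (hE : ContDiff ℝ ∞ E) (hd : ∀ x, (E x).det ≠ 0)
    (x z : Euc n) : fderiv ℝ (fun y => |(E y).det|⁻¹) x z = -(|(E x).det|⁻¹ *
      ∑ j, ((E x).toContinuousLinearEquivOfDetNeZero (hd x)).symm
        (fderiv ℝ E x z (EuclideanSpace.single j 1)) j) := by
  set L := (E x).toContinuousLinearEquivOfDetNeZero (hd x) with hL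
  have hD : ContDiff ℝ ∞ fun y => (E y).det := contDiff_det.comp hE
  have hρ : ContDiff ℝ ∞ fun y => |(E y).det|⁻¹ :=
    (hD.abs hd).inv fun y => abs_ne_zero.2 (hd y)
  have hl : HasDerivAt (fun s : ℝ => x + s • z) z 0 := by
    simpa using ((hasDerivAt_id (0 : ℝ)).smul_const z).const_add x
  have x0 : x + (0 : ℝ) • z = x := by simp
  have h1 : HasDerivAt (fun s : ℝ => E (x + s • z)) (fderiv ℝ E x z) 0 :=
    (hE.differentiable (by simp) x).hasFDerivAt.comp_hasDerivAt_of_eq 0 hl x0.symm
  have h2 := hasDerivAt_det_pt (M := fun s : ℝ => E (x + s • z)) (A := 0)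
    (B := (L.symm : Op n) ∘L fderiv ℝ E x z) (t := 0) (fun w => by
      have := h1.clm_apply (hasDerivAt_const (0 : ℝ) w)
      refine this.congr_deriv ?_
      simp only [x0, map_zero, add_zero, zero_apply, zero_add,
        ContinuousLinearMap.comp_apply, ContinuousLinearEquiv.coe_coe]
      exact (L.apply_symm_apply _).symm) (by rw [x0]; exact hd x)
  have h3 : HasDerivAt (fun s : ℝ => |(E (x + s • z)).det|⁻¹)
      (fderiv ℝ (fun y => |(E y).det|⁻¹) x z) 0 :=
    (hρ.differentiable (by simp) x).hasFDerivAt.comp_hasDerivAt_of_eq 0 hl x0.symm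
  have h4 := (h3.fun_mul h2).fun_pow 2
  have h5 : (fun s : ℝ => (|(E (x + s • z)).det|⁻¹ * (E (x + s • z)).det) ^ 2) = fun _ => 1 := by
    funext s
    rw [mul_pow, inv_pow, sq_abs, inv_mul_cancel₀ (pow_ne_zero 2 (hd _))]
  rw [h5] at h4
  have h6 := h4.unique (hasDerivAt_const _ _)
  simp only [x0, tr_eq, zero_apply, PiLp.zero_apply, Finset.sum_const_zero,
    zero_add, ContinuousLinearMap.comp_apply, ContinuousLinearEquiv.coe_coe] at h6
  have h7 := (mul_eq_zero.1 h6).resolve_left (by
    have := hd x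
    have := abs_ne_zero.2 (hd x)
    positivity)
  refine mul_right_cancel₀ (hd x) ?_
  linarith

end Ibp

open Ibp in
theorem ibpS : IbpS := by
  intro n F E hE he hd i φ hφ
  have hρ : ContDiff ℝ ∞ fun y => |(E y).det|⁻¹ :=
    ((contDiff_det.comp hE).abs hd).inv fun y => abs_ne_zero.2 (hd y)
  have hu : ContDiff ℝ ∞ fun y => φ.1 y * |(E y).det|⁻¹ := (Car.Sm.sm φ).mul hρ
  rw [← int_div (Y := fun y => (φ.1 y * |(E y).det|⁻¹) • F.e i y) (hu.smul (F.e_sm i))
    (HasCompactSupport.smul_right (f := fun y => φ.1 y * |(E y).det|⁻¹) hφ.mul_right)]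
  refine integral_congr_ae (Filter.Eventually.of_forall fun x => ?_)
  set L := (E x).toContinuousLinearEquivOfDetNeZero (hd x) with hL
  have hLe : ∀ j, L (EuclideanSpace.single j 1) = F.e j x := fun j => he x j
  have e1 : ∀ j z, fderiv ℝ E x z (EuclideanSpace.single j 1) = fderiv ℝ (F.e j) x z := fun j z => by
    rw [show F.e j = fun y => E y (EuclideanSpace.single j 1) from funext fun y => (he y j).symm,
      fderiv_clm_apply (hE.differentiable (by simp) x) (differentiableAt_const _)]
    simp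
  have e2 : ∑ j, fderiv ℝ (F.e i) x (EuclideanSpace.single j 1) j -
      ∑ j, L.symm (fderiv ℝ (F.e j) x (F.e i x)) j = ∑ j, (F.om j j i).1 x := by
    rw [← tr_conj L, ← Finset.sum_sub_distrib]
    refine Finset.sum_congr rfl fun j _ => ?_
    have h0 : (F.om i j j).1 x = 0 := by
      have := congrArg (fun ψ : Car.Sm n => ψ.1 x) (F.skew i j j)
      change _ = -(F.om i j j).1 x at this
      linarith
    rw [hLe, ← PiLp.sub_apply, ← map_sub, F.tors j i x, map_sum]
    simp only [← hLe, map_smul, ContinuousLinearEquiv.symm_apply_apply]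
    simp [Finset.sum_apply, Pi.single_apply, h0]
  have e3 := fderiv_rho hE hd x (F.e i x)
  simp only [e1, ← hL] at e3
  have e4 : ∑ k, fderiv ℝ (fun y => φ.1 y * |(E y).det|⁻¹) x (EuclideanSpace.single k 1) *
      F.e i x k = fderiv ℝ (fun y => φ.1 y * |(E y).det|⁻¹) x (F.e i x) := by
    conv_rhs => rw [← Frm.sum_ε (F.e i x), map_sum]
    simp [mul_comm]
  have e5 : (F.alg.D i φ + F.alg.dv i * φ).1 x =
      fderiv ℝ φ.1 x (F.e i x) + (∑ j, (F.om j j i).1 x) * φ.1 x := by
    rw [← Car.evx_apply, map_add, map_mul, Car.AFr.dv, map_sum]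
    rfl
  beta_reduce
  rw [fderiv_fun_smul (hu.differentiable (by simp) x) ((F.e_sm i).differentiable (by simp) x)]
  simp only [add_apply, smul_apply,
    ContinuousLinearMap.smulRight_apply, PiLp.add_apply, PiLp.smul_apply, smul_eq_mul,
    Finset.sum_add_distrib, ← Finset.mul_sum]
  rw [e4, fderiv_fun_mul ((Car.Sm.sm φ).differentiable (by simp) x) (hρ.differentiable (by simp) x),
    e5, ← e2]
  simp only [add_apply, smul_apply, smul_eq_mul, e3]
  ring

end Crest.Agent.N221
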