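import Crest.Agent.N221.Car.All
import Crest.Agent.N221.Car.BrEx
import Crest.Agent.N221.Car.BrIbp
import Crest.Agent.N221.Car.BrFrm
import Crest.Agent.N221.Car.BrGood
import Crest.Agent.N221.Car.BrFin

/-!
Row 221, block `Car` (helper34): the bridge without hypotheses.
-/

set_option autoImplicit false

namespace Crest.Agent.N221

theorem good : GoodS := goodS ibpS frmS

/-- FINITE DEGREE on the cover -/
theorem finDeg : FinS := finS Car.car frmS good

end Crest.Agent.N221
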