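import Crest.Agent.N221.Car.Core0

/-!
Row 221, block `Car` (helper34): the Carleman argument for one cut-off (`CoreS`).
-/

set_option autoImplicit false

open MvPolynomial MeasureTheory Function
open scoped ContDiff RealInnerProductSpace
open Crest.Agent.R086 Crest.Agent.R086.SH

noncomputable section

namespace Crest.Agent.N221.Car

namespace Co

variable {n : ℕ}

/-- fibrewise Fischer norm² -/
def nq (P : PP n) (x : EE n) : ℝ := fis (ax x P) (ax x P)

lemma fis_zero_left' (q : P0 n) : fis 0 q = 0 := by simp [fis]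

lemma nq_zero {K : Set (EE n)} {P : PP n} (h : Sup K P) (x : EE n) (hx : x ∉ K) : nq P x = 0 := by
  unfold nq; rw [h x hx, fis_zero_right]

lemma nq_cont (hR : Rep1S) (hn : 3 ≤ n) (P : PP n) : Continuous (nq P) := by
  have e : nq P = (fisA P P).1 := funext fun x => ((hR n hn).1 x P P).symm
  rw [e]; exact (Sm.sm _).continuous

lemma nq_int (hR : Rep1S) (hn : 3 ≤ n) {μ : Measure (EE n)} [IsFiniteMeasureOnCompacts μ]
    {K : Set (EE n)} (hK : IsCompact K) {P : PP n} (h : Sup K P) : Integrable (nq P) μ :=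
  (nq_cont hR hn P).integrable_of_hasCompactSupport (hcs_of hK (nq_zero h))

lemma Sup.del {K : Set (EE n)} (hK : IsClosed K) {P : PP n} (h : Sup K P) (F : Fr n) :
    Sup K (F.alg.del P) := by
  intro x hx
  unfold AFr.del
  rw [ax_sum]
  exact Finset.sum_eq_zero fun i _ => by rw [ax_pderiv, h.nab hK F i x hx, map_zero]

lemma Sup.Xp (hR : Rep1S) (hn : 3 ≤ n) {K : Set (EE n)} (hK : IsClosed K) {P : PP n} (h : Sup K P)
    (F : Fr n) (l : ℕ) : Sup K (F.alg.Xp l P) := by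
  intro x hx
  unfold AFr.Xp
  rw [ax_sum]
  refine Finset.sum_eq_zero fun i _ => ?_
  rw [(hR n hn).2.2.1, h.nab hK F i x hx]
  simp [Mi]

/-- the integrated Weitzenböck inequality -/
lemma weitz_int (h1 : Pol1S) (h2 : Pol2S) (h3 : Pol3S) (hW : WeitzS) (hR : Rep1S) (hn : 3 ≤ n)
    {F : Fr n} {μ : Measure (EE n)} {κ : ℝ} (hG : F.Good μ κ) {K : Set (EE n)} (hK : IsCompact K)
    {l : ℕ} {f : PP n} (hf : Sup K f) (hh : ∀ x, Sph.Harm l (ax x f))
    (hh' : ∀ i x, Sph.Harm l (ax x (F.alg.nab i f))) :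
    (1 - 2 / ((n : ℝ) + 2 * l - 2)) * ∫ x, nq (F.alg.del f) x ∂μ +
      κ * ((l : ℝ) * (l + n - 2)) * ∫ x, nq f x ∂μ ≤ ∫ x, nq (F.alg.Xp l f) x ∂μ := by
  have := hG.fin
  obtain ⟨hO1, hO2, -, hId⟩ := hW n (Sm n) F.alg
  have hev := (hR n hn).1
  set w : Fin n → Sm n := fun i => F.alg.D i (F.alg.W f i) + F.alg.dv i * F.alg.W f i with hw
  have hWs : ∀ i, HasCompactSupport (F.alg.W f i).1 := fun i => hcs_of hK fun x hx => by
    unfold AFr.W
    rw [sm_sum]
    refine Finset.sum_eq_zero fun j _ => ?_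
    rw [sm_sub, hev, hev, hf x hx, fis_zero_right, fis_zero_right, sub_self]
  have hwi : ∀ i, Integrable (w i).1 μ := fun i => by
    refine (Sm.sm (w i)).continuous.integrable_of_hasCompactSupport ?_
    have a1 : HasCompactSupport (F.alg.D i (F.alg.W f i)).1 :=
      ((hWs i).fderiv ℝ).mono fun x hx h0 => hx (by
        show fderiv ℝ (F.alg.W f i).1 x (F.e i x) = 0
        rw [h0]; rfl)
    exact a1.add ((hWs i).mul_left (f := (F.alg.dv i).1))
  have hw0 : ∫ x, ∑ i, (w i).1 x ∂μ = 0 := by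
    rw [integral_finsetSum _ fun i _ => hwi i]
    exact Finset.sum_eq_zero fun i _ => hG.ibp i _ (hWs i)
  have hpt : ∀ x, (1 - 2 / ((n : ℝ) + 2 * l - 2)) * nq (F.alg.del f) x +
      κ * ((l : ℝ) * (l + n - 2)) * nq f x + ∑ i, (w i).1 x ≤ nq (F.alg.Xp l f) x := by
    intro x
    have e1 := congrArg (fun φ : Sm n => φ.1 x) (hId f)
    simp only [sm_add, sm_sum, hev] at e1
    have e2 := (h2 n hn l).2.2.2.2.2.2.2 (fun i => ax x (F.alg.nab i f)) fun i => hh' i x
    have e3 : ax x (F.alg.Dv f) = ∑ i, X i * ax x (F.alg.nab i f) := by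
      unfold AFr.Dv; simp only [ax_sum, ax_mul, ax_X]
    have e4 : ax x (F.alg.Xp l f) = ∑ i, Mi l i (ax x (F.alg.nab i f)) := by
      unfold AFr.Xp; simp only [ax_sum, (hR n hn).2.2.1]
    have e5 : ax x (F.alg.del f) = ∑ i, pderiv i (ax x (F.alg.nab i f)) := by
      unfold AFr.del; simp only [ax_sum, ax_pderiv]
    rw [← e3, ← e4, ← e5] at e2
    have e6 := (h3 n hn).1 (fun i j a b => (F.alg.Om i j a b).1 x) κ l (ax x f)
      (fun i j a b => by rw [hO1 i j a b, sm_neg]) (fun i j a b => by rw [hO2 i j a b, sm_neg])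
      (hG.neg x) (hh x)
    have e7 : (F.alg.curv f).1 x = ∑ i, ∑ j, ∑ a, ∑ b, (F.alg.Om i j a b).1 x *
        fis (X b * pderiv a (ax x f)) (X i * pderiv j (ax x f)) := by
      unfold AFr.curv
      simp only [sm_sum, sm_mul, hev, ax_mul, ax_X, ax_pderiv]
    have e8 : 0 ≤ ∑ i, fis (ax x (F.alg.nab i f)) (ax x (F.alg.nab i f)) :=
      Finset.sum_nonneg fun i _ => (h1 n hn).2.1 _
    have e9 : ∑ i, (w i).1 x =
        ∑ i, ((F.alg.D i (F.alg.W f i)).1 x + (F.alg.dv i * F.alg.W f i).1 x) := rfl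
    unfold nq
    rw [e9]
    rw [e7] at e1
    linarith
  have i1 := nq_int hR hn (μ := μ) hK (hf.del hK.isClosed F)
  have i2 := nq_int hR hn (μ := μ) hK hf
  have i3 := nq_int hR hn (μ := μ) hK (hf.Xp hR hn hK.isClosed F l)
  have i4 : Integrable (fun x => ∑ i, (w i).1 x) μ := integrable_finsetSum _ fun i _ => hwi i
  have h := integral_mono (((i1.const_mul _).add (i2.const_mul _)).add i4) i3 hpt
  rw [integral_add' ((i1.const_mul _).add (i2.const_mul _)) i4,
    integral_add' (i1.const_mul _) (i2.const_mul _), integral_const_mul, integral_const_mul,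
    hw0, add_zero] at h
  exact h

lemma Rep.add (hR : Rep1S) (hn : 3 ≤ n) {l : ℕ} {U V : EE n → EE n → ℝ} {P Q : PP n}
    (hU : SmU U) (hV : SmU V) (hP : Rep l U P) (hQ : Rep l V Q) :
    Rep l (fun x v => U x v + V x v) (P + Q) := by
  have h := (hR n hn).2.2.2.2.2.2.1 l Bool Finset.univ (fun b => cond b U V) (fun b => cond b P Q)
    (fun b _ => by cases b <;> assumption) (fun b _ => by cases b <;> assumption)
  simpa [Fintype.sum_bool] using h

/-- the transport equation in components -/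
lemma recur (hR : Rep1S) (hR2 : Rep2S) (hn : 3 ≤ n) (F : Fr n) {u : EE n → EE n → ℝ} {k : ℝ}
    {P : ℕ → PP n} (χ : Sm n) (hu : SmU u) (hX : ∀ x v, ‖v‖ = 1 → F.XU u x v = k * u x v)
    (hP : ∀ l, Rep l u (P l)) (l : ℕ) (x : EE n) :
    ((n : ℝ) + 2 * l)⁻¹ • ax x (F.alg.Xp l (C χ * P l)) =
      (k • ax x (C χ * P (l + 1)) + ∑ i, (F.alg.D i χ).1 x • pderiv i (ax x (P (l + 2))) +
        ((n : ℝ) + 2 * l)⁻¹ • ∑ i, (F.alg.D i χ).1 x • Mi l i (ax x (P l))) -
      ax x (F.alg.del (C χ * P (l + 2))) := by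
  obtain ⟨-, -, hMi, -, hloc, hmul, hsum, hco⟩ := hR n hn
  have hU : SmU fun x v => χ.1 x * u x v := smU_mul χ hu
  have hf : ∀ l, Rep l (fun x v => χ.1 x * u x v) (C χ * P l) := fun l => hmul l u _ χ (hP l)
  have hN := fun i => (hR2 n hn _ hU).2 F i
  have r1 := hsum (l + 1) (Fin n) Finset.univ
    (fun i x v => v i * F.nabU i (fun x v => χ.1 x * u x v) x v) _
    (fun i _ => smU_coord i (hN i).1)
    (fun i _ => hco l i _ _ _ (hN i).1 ((hN i).2 l _ (hf l)) ((hN i).2 (l + 2) _ (hf (l + 2))))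
  have r2 := hsum (l + 1) (Fin n) Finset.univ
    (fun i x v => (F.alg.D i χ).1 x * (v i * u x v)) _
    (fun i _ => smU_mul _ (smU_coord i hu))
    (fun i _ => hmul (l + 1) _ _ (F.alg.D i χ) (hco l i u _ _ hu (hP l) (hP (l + 2))))
  have r3 := hmul (l + 1) _ _ (algebraMap ℝ (Sm n) k) (hf (l + 1))
  have r4 := Rep.add hR hn (smU_mul _ hU)
    (smU_sum _ fun i _ => smU_mul (F.alg.D i χ) (smU_coord i hu)) r3 r2
  have e := hloc (l + 1) _ _ _ _ r1 r4 x fun v hv => by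
    have h := hX x v hv
    unfold Fr.XU at h
    simp only [nabU_mul F _ χ hu]
    show _ = k * (χ.1 x * u x v) + _
    have : ∑ i, v i * ((F.alg.D i χ).1 x * u x v + χ.1 x * F.nabU i u x v) =
        χ.1 x * ∑ i, v i * F.nabU i u x v + ∑ i, (F.alg.D i χ).1 x * (v i * u x v) := by
      rw [Finset.mul_sum, ← Finset.sum_add_distrib]
      exact Finset.sum_congr rfl fun i _ => by ring
    rw [this, h]; ring
  have ek : (algebraMap ℝ (Sm n) k).1 x = k := rfl
  rw [ax_add, ax_C_mul x (algebraMap ℝ (Sm n) k), ek] at e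
  simp only [ax_sum, ax_add, ax_smul, ax_pderiv, hMi, Finset.sum_add_distrib,
    ax_C_mul x (F.alg.D _ χ), smul_add] at e
  unfold AFr.Xp AFr.del
  simp only [ax_sum, ax_pderiv, hMi]
  rw [eq_sub_iff_add_eq, add_comm, Finset.smul_sum, e, add_assoc, Finset.smul_sum]
  congr 2
  exact Finset.sum_congr rfl fun i _ => smul_comm _ _ _

/-- pointwise form of the recursive inequality -/
lemma recur_le (h1 : Pol1S) (h2 : Pol2S) (hR : Rep1S) (hR2 : Rep2S) (hn : 3 ≤ n) (F : Fr n)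
    {u : EE n → EE n → ℝ} {k : ℝ} {P : ℕ → PP n} (χ : Sm n) (hu : SmU u)
    (hX : ∀ x v, ‖v‖ = 1 → F.XU u x v = k * u x v) (hP : ∀ l, Rep l u (P l)) (l : ℕ) {θ : ℝ}
    (hθ : 0 < θ) (x : EE n) :
    kp n l / ((n : ℝ) + 2 * l) * nq (F.alg.Xp l (C χ * P l)) x ≤
      (1 + θ⁻¹) * (3 * (k ^ 2 * (kp n (l + 1) * nq (C χ * P (l + 1)) x) +
        kp n (l + 2) * ((∑ i, (F.alg.D i χ).1 x ^ 2) * nq (P (l + 2)) x) +
        kp n l * ((∑ i, (F.alg.D i χ).1 x ^ 2) * nq (P l) x))) +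
      (1 + θ) * (kp n (l + 1) * nq (F.alg.del (C χ * P (l + 2))) x) := by
  obtain ⟨hs, h0, -, hm, -, -, -, hkp, hkr, -⟩ := h1 n hn
  have hn3 : (3 : ℝ) ≤ n := by exact_mod_cast hn
  have hl : (0 : ℝ) ≤ l := Nat.cast_nonneg l
  have hd : (0 : ℝ) < n + 2 * l := by linarith
  have e := recur hR hR2 hn F χ hu hX hP l x
  have a1 := fis_sub_le hs h0 hm hθ
    (k • ax x (C χ * P (l + 1)) + ∑ i, (F.alg.D i χ).1 x • pderiv i (ax x (P (l + 2))) +
        ((n : ℝ) + 2 * l)⁻¹ • ∑ i, (F.alg.D i χ).1 x • Mi l i (ax x (P l)))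
    (ax x (F.alg.del (C χ * P (l + 2))))
  rw [← e, fis_smul_smul hs hm] at a1
  have a2 := fis_add3_le hs h0 hm (k • ax x (C χ * P (l + 1)))
    (∑ i, (F.alg.D i χ).1 x • pderiv i (ax x (P (l + 2))))
    (((n : ℝ) + 2 * l)⁻¹ • ∑ i, (F.alg.D i χ).1 x • Mi l i (ax x (P l)))
  rw [fis_smul_smul hs hm, fis_smul_smul hs hm] at a2
  have a3 := fis_sum_le hs h0 hm Finset.univ (fun i => (F.alg.D i χ).1 x)
    (fun i => pderiv i (ax x (P (l + 2))))
  rw [(h2 n hn (l + 2)).2.2.2.2.2.1 _ (hP (l + 2) x).1.hom] at a3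
  have a4 := fis_sum_le hs h0 hm Finset.univ (fun i => (F.alg.D i χ).1 x)
    (fun i => Mi l i (ax x (P l)))
  have a5 := (h2 n hn l).2.2.2.2.2.2.1 _ (hP l x).1
  have hc : 0 ≤ ∑ i, (F.alg.D i χ).1 x ^ 2 := Finset.sum_nonneg fun i _ => sq_nonneg _
  have a6 := a4.trans (mul_le_mul_of_nonneg_left a5 hc)
  unfold nq
  set c := ∑ i, (F.alg.D i χ).1 x ^ 2
  set A := fis (ax x (F.alg.Xp l (C χ * P l))) (ax x (F.alg.Xp l (C χ * P l)))
  set B := fis (ax x (F.alg.del (C χ * P (l + 2)))) (ax x (F.alg.del (C χ * P (l + 2))))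
  set N1 := fis (ax x (C χ * P (l + 1))) (ax x (C χ * P (l + 1)))
  set N2 := fis (ax x (P (l + 2))) (ax x (P (l + 2)))
  set N0 := fis (ax x (P l)) (ax x (P l))
  set S2 := fis (∑ i, (F.alg.D i χ).1 x • pderiv i (ax x (P (l + 2))))
    (∑ i, (F.alg.D i χ).1 x • pderiv i (ax x (P (l + 2))))
  set S0 := fis (∑ i, (F.alg.D i χ).1 x • Mi l i (ax x (P l)))
    (∑ i, (F.alg.D i χ).1 x • Mi l i (ax x (P l)))
  have hN2 : 0 ≤ N2 := h0 _
  have hN0 : 0 ≤ N0 := h0 _
  have k1 := hkr l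
  have k2 := hkr (l + 1)
  have p0 := hkp l
  have p1 := hkp (l + 1)
  push_cast at k2 a3
  have b2 : kp n (l + 1) * S2 ≤ kp n (l + 2) * (c * N2) := by
    rw [show l + 2 = l + 1 + 1 from rfl, k2]
    have : ((l : ℝ) + 2) * (c * N2) ≤ (n + 2 * (l + 1)) * (c * N2) :=
      mul_le_mul_of_nonneg_right (by linarith) (mul_nonneg hc hN2)
    nlinarith
  have b0 : kp n (l + 1) * (((n : ℝ) + 2 * l)⁻¹ ^ 2 * S0) ≤ kp n l * (c * N0) := by
    rw [k1]
    have e1 : ((n : ℝ) + 2 * l) * kp n l * (((n : ℝ) + 2 * l)⁻¹ ^ 2 * S0) =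
        kp n l * (S0 / (n + 2 * l)) := by field_simp
    rw [e1]
    refine mul_le_mul_of_nonneg_left ?_ p0.le
    rw [div_le_iff₀ hd]
    have : c * N0 * ((n : ℝ) + l) ≤ c * N0 * (n + 2 * l) :=
      mul_le_mul_of_nonneg_left (by linarith) (mul_nonneg hc hN0)
    linarith
  have e0 : kp n l / ((n : ℝ) + 2 * l) * A = kp n (l + 1) * (((n : ℝ) + 2 * l)⁻¹ ^ 2 * A) := by
    rw [k1]; field_simp
  have ht : 0 ≤ 1 + θ⁻¹ := by positivity
  have a7 := mul_le_mul_of_nonneg_left (a1.trans (add_le_add_left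
    (mul_le_mul_of_nonneg_left a2 ht) _)) p1.le
  have a8 := mul_le_mul_of_nonneg_left (add_le_add b2 b0) ht
  rw [e0]
  nlinarith

/-- `κ_{l-1} |δ f|² ≤ n κ_l ∑ |∇_i f|²` -/
lemma del_le (h1 : Pol1S) (h2 : Pol2S) (hn : 3 ≤ n) (F : Fr n) {l : ℕ} {f : PP n}
    (hh : ∀ i x, Sph.Harm (l + 1) (ax x (F.alg.nab i f))) (x : EE n) :
    kp n l * nq (F.alg.del f) x ≤ n * ∑ i, kp n (l + 1) * nq (F.alg.nab i f) x := by
  obtain ⟨hs, h0, -, hm, -, -, -, hkp, hkr, -⟩ := h1 n hn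
  have hn3 : (3 : ℝ) ≤ n := by exact_mod_cast hn
  have hl : (0 : ℝ) ≤ l := Nat.cast_nonneg l
  have e5 : ax x (F.alg.del f) = ∑ i, pderiv i (ax x (F.alg.nab i f)) := by
    unfold AFr.del; simp only [ax_sum, ax_pderiv]
  unfold nq
  rw [e5]
  have a1 := fis_sum_one_le hs h0 hm fun i => pderiv i (ax x (F.alg.nab i f))
  have a2 : ∀ i, kp n l * fis (pderiv i (ax x (F.alg.nab i f))) (pderiv i (ax x (F.alg.nab i f))) ≤
      kp n (l + 1) * fis (ax x (F.alg.nab i f)) (ax x (F.alg.nab i f)) := by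
    intro i
    have b1 := (h2 n hn (l + 1)).2.2.2.2.2.1 _ (hh i x).hom
    have b2 := Finset.single_le_sum (f := fun j => fis (pderiv j (ax x (F.alg.nab i f)))
      (pderiv j (ax x (F.alg.nab i f)))) (fun j _ => h0 _) (Finset.mem_univ i)
    rw [b1] at b2
    push_cast at b2
    rw [hkr l]
    have b3 := h0 (ax x (F.alg.nab i f))
    have b4 := hkp l
    have b5 : ((l : ℝ) + 1) * fis (ax x (F.alg.nab i f)) (ax x (F.alg.nab i f)) ≤
        (n + 2 * l) * fis (ax x (F.alg.nab i f)) (ax x (F.alg.nab i f)) :=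
      mul_le_mul_of_nonneg_right (by linarith) b3
    nlinarith
  have a3 := Finset.sum_le_sum fun i (_ : i ∈ Finset.univ) => a2 i
  rw [← Finset.mul_sum] at a3
  have a4 := mul_le_mul_of_nonneg_left a1 (hkp l).le
  have a5 := mul_le_mul_of_nonneg_left a3 (by linarith : (0 : ℝ) ≤ n)
  nlinarith

/-- decay of the integrated components -/
lemma decay (h1 : Pol1S) (hR3 : Rep3S) (hn : 3 ≤ n) (μ : Measure (EE n))
    [IsFiniteMeasureOnCompacts μ] {K : Set (EE n)} (hK : IsCompact K) {U : EE n → EE n → ℝ}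
    (hU : SmU U) (N : ℕ) : ∃ B : ℝ, 0 ≤ B ∧ ∀ l f, Rep l U f → Sup K f →
      (l : ℝ) ^ N * (kp n l * ∫ x, nq f x ∂μ) ≤ B := by
  obtain ⟨V, hV, -, hb⟩ := (hR3 n hn).1 U hU N
  obtain ⟨M, hM0, hM⟩ := exists_sI_le hK hV
  refine ⟨M * μ.real K, by positivity, fun l f hf hs => ?_⟩
  rw [← integral_const_mul, ← integral_const_mul]
  refine integral_le_of_supp hK (fun x hx => by rw [nq_zero hs x hx]; simp) fun x hx => ?_
  unfold nq
  rw [abs_of_nonneg (mul_nonneg (by positivity)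
    (mul_nonneg ((h1 n hn).2.2.2.2.2.2.2.1 l).le ((h1 n hn).2.1 _)))]
  exact (hb l f hf x).trans (hM x hx)

end Co

open Co in
theorem coreS (h1 : Pol1S) (h2 : Pol2S) (h3 : Pol3S) (hW : WeitzS) (hR : Rep1S) (hR2 : Rep2S)
    (hR3 : Rep3S) (hS : SumS) : CoreS := by
  intro n hn F μ κ hG ι _ u k P χ hu hX hP hχ hD
  have := hG.fin
  have := hG.pos
  obtain ⟨K0, hD⟩ := hD
  obtain ⟨hs, h0, -, hm, -, -, -, hkp, hkr, -⟩ := h1 n hn
  have hn3 : (3 : ℝ) ≤ n := by exact_mod_cast hn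
  have hK : IsCompact (tsupport χ.1) := hχ
  set K := tsupport χ.1 with hKd
  set f : ι → ℕ → PP n := fun a l => C χ * P a l with hfd
  have hU : ∀ a, SmU fun x v => χ.1 x * u a x v := fun a => smU_mul χ (hu a)
  have hf : ∀ a l, Rep l (fun x v => χ.1 x * u a x v) (f a l) := fun a l =>
    (hR n hn).2.2.2.2.2.1 l (u a) _ χ (hP a l)
  have hN := fun a i => (hR2 n hn _ (hU a)).2 F i
  have hsup : ∀ a l, Sup K (f a l) := fun a l x hx => by
    rw [hfd]; simp only
    rw [ax_C_mul, image_eq_zero_of_notMem_tsupport hx, zero_smul]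
  have hnq : ∀ a l x, nq (f a l) x = χ.1 x ^ 2 * nq (P a l) x := fun a l x => by
    unfold nq; rw [hfd]; simp only
    rw [ax_C_mul, fis_smul_smul hs hm]
  have hI0 : ∀ Q : PP n, 0 ≤ ∫ x, nq Q x ∂μ := fun Q => integral_nonneg fun x => h0 _
  set m : ℕ → ℝ := fun l => ∑ a, kp n l * ∫ x, nq (f a l) x ∂μ with hmd
  set b : ℕ → ℝ := fun l => ∑ a, kp n (l - 1) * ∫ x, nq (F.alg.del (f a l)) x ∂μ with hbd
  have hm0 : ∀ l, 0 ≤ m l := fun l => Finset.sum_nonneg fun a _ => mul_nonneg (hkp _).le (hI0 _)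
  have hb0 : ∀ l, 0 ≤ b l := fun l => Finset.sum_nonneg fun a _ => mul_nonneg (hkp _).le (hI0 _)
  set c : EE n → ℝ := fun x => ∑ i, (F.alg.D i χ).1 x ^ 2 with hcd
  have hcc : Continuous c := continuous_finsetSum _ fun i _ => (Sm.sm _).continuous.pow 2
  have hc0 : ∀ x, x ∉ K → c x = 0 := fun x hx => Finset.sum_eq_zero fun i _ => by
    have : fderiv ℝ χ.1 x = 0 := by
      by_contra h
      exact hx (support_fderiv_subset ℝ h)
    show (fderiv ℝ χ.1 x (F.e i x)) ^ 2 = 0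
    rw [this]; simp
  have hci : ∀ a l, Integrable (fun x => c x * nq (P a l) x) μ := fun a l =>
    (hcc.mul (nq_cont hR hn _)).integrable_of_hasCompactSupport
      (hcs_of hK fun x hx => by simp [hc0 x hx])
  have hfi : ∀ a l, Integrable (nq (f a l)) μ := fun a l => nq_int hR hn hK (hsup a l)
  have hD' : ∀ l, ∑ a, kp n l * ∫ x, c x * nq (P a l) x ∂μ ≤ max K0 0 * m l := by
    intro l
    have e1 : ∫ x, c x * ∑ a, nq (P a l) x ∂μ = ∑ a, ∫ x, c x * nq (P a l) x ∂μ := by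
      rw [← integral_finsetSum _ fun a _ => hci a l]
      simp only [Finset.mul_sum]
    have e2 : ∫ x, χ.1 x ^ 2 * ∑ a, nq (P a l) x ∂μ = ∑ a, ∫ x, nq (f a l) x ∂μ := by
      rw [← integral_finsetSum _ fun a _ => hfi a l]
      simp only [Finset.mul_sum, hnq]
    have e3 : ∫ x, c x * ∑ a, nq (P a l) x ∂μ ≤ K0 * ∫ x, χ.1 x ^ 2 * ∑ a, nq (P a l) x ∂μ := hD l
    rw [e1, e2] at e3
    have e4 : 0 ≤ ∑ a, ∫ x, nq (f a l) x ∂μ := Finset.sum_nonneg fun a _ => hI0 _
    rw [hmd]; simp only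
    rw [← Finset.mul_sum, ← Finset.mul_sum]
    have e5 := e3.trans (mul_le_mul_of_nonneg_right (le_max_left K0 0) e4)
    have := mul_le_mul_of_nonneg_left e5 (hkp l).le
    linarith
  refine (hS b m (κ / 3) (3 * (k ^ 2 + max K0 0)) (by linarith [hG.kap_pos])
    (by positivity) hb0 hm0 ?_ ?_).elim fun D hDm => ?_
  rotate_left 2
  · refine ⟨D, fun a l x hl hx => ?_⟩
    have e1 : kp n l * ∫ x, nq (f a l) x ∂μ = 0 :=
      (Finset.sum_eq_zero_iff_of_nonneg fun a _ => mul_nonneg (hkp _).le (hI0 _)).1 (hDm l hl) a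
        (Finset.mem_univ a)
    have e2 := (mul_eq_zero.1 e1).resolve_left (hkp l).ne'
    have e3 := (integral_eq_zero_iff_of_nonneg (fun x => h0 _) (hfi a l)).1 e2
    have e4 := congrFun (((nq_cont hR hn (f a l)).ae_eq_iff_eq μ continuous_zero).1 e3) x
    rw [hnq, Pi.zero_apply] at e4
    exact fis_self_eq_zero ((mul_eq_zero.1 e4).resolve_left (pow_ne_zero 2 hx))
  · intro N
    choose B1 hB1 hB1' using fun a => decay h1 hR3 hn μ hK (hU a) N
    choose B2 hB2 hB2' using fun a i => decay h1 hR3 hn μ hK (hN a i).1 N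
    have s1 : 0 ≤ ∑ a, B1 a := Finset.sum_nonneg fun a _ => hB1 a
    have s2 : 0 ≤ ∑ a, (n : ℝ) * ∑ i, B2 a i := Finset.sum_nonneg fun a _ =>
      mul_nonneg (by linarith) (Finset.sum_nonneg fun i _ => hB2 a i)
    refine ⟨∑ a, B1 a + ∑ a, (n : ℝ) * ∑ i, B2 a i + b 0, fun l => ⟨?_, ?_⟩⟩
    · rcases l with _ | l
      · have : ((0 : ℕ) : ℝ) ^ N ≤ 1 := pow_le_one₀ (by simp) (by simp)
        have := mul_le_mul_of_nonneg_right this (hb0 0)
        linarith
      · have : ((l + 1 : ℕ) : ℝ) ^ N * b (l + 1) ≤ ∑ a, (n : ℝ) * ∑ i, B2 a i := by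
          rw [hbd]; simp only
          rw [Finset.mul_sum]
          refine Finset.sum_le_sum fun a _ => ?_
          have hni : ∀ i, Integrable (nq (F.alg.nab i (f a (l + 1)))) μ := fun i =>
            nq_int hR hn hK ((hsup a _).nab hK.isClosed F i)
          have t1 := integral_mono ((nq_int hR hn (μ := μ) hK
            ((hsup a (l + 1)).del hK.isClosed F)).const_mul (kp n l))
            ((integrable_finsetSum _ fun i _ => (hni i).const_mul (kp n (l + 1))).const_mul n)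
            (del_le h1 h2 hn F (fun i x => ((hN a i).2 _ _ (hf a (l + 1)) x).1))
          rw [integral_const_mul, integral_const_mul,
            integral_finsetSum _ fun i _ => (hni i).const_mul _] at t1
          simp only [integral_const_mul] at t1
          have t2 := Finset.sum_le_sum fun i (_ : i ∈ Finset.univ) =>
            hB2' a i (l + 1) _ ((hN a i).2 _ _ (hf a (l + 1))) ((hsup a _).nab hK.isClosed F i)
          rw [← Finset.mul_sum] at t2
          have t3 := mul_le_mul_of_nonneg_left t1 (by positivity : 0 ≤ ((l + 1 : ℕ) : ℝ) ^ N)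
          have t4 := mul_le_mul_of_nonneg_left t2 (by linarith : (0 : ℝ) ≤ n)
          rw [Nat.add_sub_cancel]
          linarith
        linarith [hb0 0]
    · have : (l : ℝ) ^ N * m l ≤ ∑ a, B1 a := by
        rw [hmd]; simp only
        rw [Finset.mul_sum]
        exact Finset.sum_le_sum fun a _ => hB1' a l _ (hf a l) (hsup a l)
      linarith [hb0 0]
  · intro T hT l hl
    have hl1 : (1 : ℝ) ≤ l := by exact_mod_cast hl
    have hθ : 0 < T / l := by positivity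
    have hd : (0 : ℝ) < n + 2 * l := by linarith
    have hd2 : (0 : ℝ) < n + 2 * l - 2 := by linarith
    have hkl : kp n l = (n + 2 * l - 2) * kp n (l - 1) := by
      obtain ⟨j, rfl⟩ : ∃ j, l = j + 1 := ⟨l - 1, by omega⟩
      rw [hkr j, Nat.add_sub_cancel]; push_cast; ring
    have up : ∀ a, kp n l / ((n : ℝ) + 2 * l) * ∫ x, nq (F.alg.Xp l (f a l)) x ∂μ ≤
        (1 + (T / l)⁻¹) * (3 * (k ^ 2 * (kp n (l + 1) * ∫ x, nq (f a (l + 1)) x ∂μ) +
          kp n (l + 2) * ∫ x, c x * nq (P a (l + 2)) x ∂μ +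
          kp n l * ∫ x, c x * nq (P a l) x ∂μ)) +
        (1 + T / l) * (kp n (l + 1) * ∫ x, nq (F.alg.del (f a (l + 2))) x ∂μ) := by
      intro a
      have j1 := ((hfi a (l + 1)).const_mul (kp n (l + 1))).const_mul (k ^ 2)
      have j2 := (hci a (l + 2)).const_mul (kp n (l + 2))
      have j3 := (hci a l).const_mul (kp n l)
      have j4 := ((nq_int hR hn (μ := μ) hK ((hsup a (l + 2)).del hK.isClosed F)).const_mul
        (kp n (l + 1))).const_mul (1 + T / l)
      have j5 := (((j1.add j2).add j3).const_mul 3).const_mul (1 + (T / l)⁻¹)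
      have t := integral_mono ((nq_int hR hn (μ := μ) hK
        ((hsup a l).Xp hR hn hK.isClosed F l)).const_mul (kp n l / ((n : ℝ) + 2 * l))) (j5.add j4)
        (recur_le h1 h2 hR hR2 hn F χ (hu a) (hX a) (hP a) l hθ)
      rw [integral_add' j5 j4, integral_const_mul, integral_const_mul, integral_const_mul,
        integral_add' (j1.add j2) j3, integral_add' j1 j2] at t
      simp only [integral_const_mul] at t
      exact t
    have low : ∀ a, (1 - 2 / (l : ℝ)) * (kp n (l - 1) * ∫ x, nq (F.alg.del (f a l)) x ∂μ) +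
        κ / 3 * l * (kp n l * ∫ x, nq (f a l) x ∂μ) ≤
        kp n l / ((n : ℝ) + 2 * l) * ∫ x, nq (F.alg.Xp l (f a l)) x ∂μ := by
      intro a
      have t := weitz_int h1 h2 h3 hW hR hn hG hK (hsup a l) (fun x => (hf a l x).1)
        fun i x => ((hN a i).2 _ _ (hf a l) x).1
      have t2 := mul_le_mul_of_nonneg_left t (div_pos (hkp l) hd).le
      refine le_trans ?_ t2
      rw [mul_add]
      have q1 := hI0 (F.alg.del (f a l))
      have q2 := hI0 (f a l)
      have q3 := hkp (l - 1)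
      have q4 := hkp l
      refine add_le_add ?_ ?_
      · have e1 : kp n l / ((n : ℝ) + 2 * l) * ((1 - 2 / ((n : ℝ) + 2 * l - 2)) *
            ∫ x, nq (F.alg.del (f a l)) x ∂μ) =
            (1 - 4 / ((n : ℝ) + 2 * l)) * (kp n (l - 1) * ∫ x, nq (F.alg.del (f a l)) x ∂μ) := by
          rw [hkl]; field_simp; ring
        rw [e1]
        refine mul_le_mul_of_nonneg_right ?_ (mul_nonneg q3.le q1)
        have : 4 / ((n : ℝ) + 2 * l) ≤ 2 / l := by
          rw [div_le_div_iff₀ hd (by linarith)]; nlinarith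
        linarith
      · have e1 : kp n l / ((n : ℝ) + 2 * l) * (κ * ((l : ℝ) * (l + n - 2)) *
            ∫ x, nq (f a l) x ∂μ) =
            κ * l * ((l + n - 2) / ((n : ℝ) + 2 * l)) * (kp n l * ∫ x, nq (f a l) x ∂μ) := by
          field_simp
        rw [e1]
        refine mul_le_mul_of_nonneg_right ?_ (mul_nonneg q4.le q2)
        have : 1 / 3 ≤ ((l : ℝ) + n - 2) / ((n : ℝ) + 2 * l) := by
          rw [div_le_div_iff₀ (by norm_num) hd]; linarith
        have := mul_le_mul_of_nonneg_left this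
          (mul_nonneg hG.kap_pos.le (by linarith : (0 : ℝ) ≤ l))
        linarith
    have tot := Finset.sum_le_sum fun a (_ : a ∈ Finset.univ) => (low a).trans (up a)
    simp only [Finset.sum_add_distrib, ← Finset.mul_sum (a := 1 - 2 / (l : ℝ)),
      ← Finset.mul_sum (a := κ / 3 * l), ← Finset.mul_sum (a := 1 + (T / l)⁻¹),
      ← Finset.mul_sum (a := 1 + T / l), ← Finset.mul_sum (a := (3 : ℝ)),
      ← Finset.mul_sum (a := k ^ 2)] at tot
    have eb : b (l + 2) = ∑ a, kp n (l + 1) * ∫ x, nq (F.alg.del (f a (l + 2))) x ∂μ := rfl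
    have ei : (T / (l : ℝ))⁻¹ = l / T := inv_div _ _
    rw [← eb, ei] at tot
    have d2 := hD' (l + 2)
    have d0 := hD' l
    have ht : 0 ≤ 1 + (l : ℝ) / T := by positivity
    have hK0 : 0 ≤ max K0 0 := le_max_right _ _
    have m0 := hm0 l
    have m1 := hm0 (l + 1)
    have m2 := hm0 (l + 2)
    have fin : 3 * (k ^ 2 * m (l + 1) + ∑ a, kp n (l + 2) * ∫ x, c x * nq (P a (l + 2)) x ∂μ +
        ∑ a, kp n l * ∫ x, c x * nq (P a l) x ∂μ) ≤
        3 * (k ^ 2 + max K0 0) * (m l + m (l + 1) + m (l + 2)) := by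
      nlinarith [mul_nonneg (sq_nonneg k) m0, mul_nonneg (sq_nonneg k) m2, mul_nonneg hK0 m1]
    have fin2 := mul_le_mul_of_nonneg_left fin ht
    show (1 - 2 / (l : ℝ)) * (∑ a, kp n (l - 1) * ∫ x, nq (F.alg.del (f a l)) x ∂μ) +
      κ / 3 * l * (∑ a, kp n l * ∫ x, nq (f a l) x ∂μ) ≤ _
    refine tot.trans ?_
    show (1 + (l : ℝ) / T) * (3 * (k ^ 2 * m (l + 1) + _ + _)) + _ ≤ _
    linarith

end Crest.Agent.N221.Car
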