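import Crest.Agent.N221.Car.Defs

/-!
Row 221, block `Car`: from one cut-off to the finite degree theorem (`carS`, helper6).
-/

set_option autoImplicit false

open MvPolynomial MeasureTheory Function
open scoped ContDiff RealInnerProductSpace Topology
open Crest.Agent.R086 Crest.Agent.R086.SH

noncomputable section

namespace Crest.Agent.N221.Car

namespace Mn

variable {n : ℕ} {u u' : EE n → EE n → ℝ} {x v : EE n}

def bt : ContDiffBump (1 : ℝ) := ⟨1 / 4, 1 / 2, by norm_num, by norm_num⟩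

/-- extension from the unit sphere -/
def ext (u : EE n → EE n → ℝ) (x v : EE n) : ℝ := bt ‖v‖ * u x (‖v‖⁻¹ • v)

lemma ext_eq (hv : ‖v‖ = 1) : ext u x v = u x v := by
  rw [ext, hv, bt.one_of_mem_closedBall (Metric.mem_closedBall_self bt.rIn_pos.le), inv_one,
    one_smul, one_mul]

lemma ext_sm (hu : ∀ x v, ‖v‖ = 1 → ContDiffAt ℝ ∞ (uncurry u) (x, v)) : SmU (ext u) := by
  refine contDiff_iff_contDiffAt.2 fun z => ?_
  rcases eq_or_ne z.2 0 with h | h
  · refine (contDiffAt_const (c := 0)).congr_of_eventuallyEq ?_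
    have : ∀ᶠ y : EE n × EE n in 𝓝 z, ‖y.2‖ < 1 / 2 :=
      continuous_snd.norm.continuousAt.eventually_lt continuousAt_const (by simp [h])
    filter_upwards [this] with y hy
    have : bt ‖y.2‖ = 0 := bt.zero_of_le_dist (by
      rw [dist_comm]; exact le_trans (by simp only [bt]; linarith) (le_abs_self _))
    simp only [uncurry, ext, this, zero_mul]
  · have h1 : ContDiffAt ℝ ∞ (fun y : EE n × EE n => ‖y.2‖) z := contDiffAt_snd.norm ℝ h
    exact (bt.contDiffAt.comp z h1).mul
      ((hu z.1 _ (norm_smul_inv_norm h)).comp z (f := fun y : EE n × EE n => (y.1, ‖y.2‖⁻¹ • y.2))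
        (contDiffAt_fst.prodMk ((h1.inv (norm_ne_zero_iff.2 h)).smul contDiffAt_snd)))

/-- tangential derivatives only depend on the values on the sphere -/
lemma fderiv_tan (h : ∀ x v, ‖v‖ = 1 → u' x v = u x v) (hv : ‖v‖ = 1)
    (h1 : DifferentiableAt ℝ (uncurry u') (x, v)) (h2 : DifferentiableAt ℝ (uncurry u) (x, v))
    (e : EE n) {w : EE n} (hw : ⟪v, w⟫ = 0) :
    fderiv ℝ (uncurry u') (x, v) (e, w) = fderiv ℝ (uncurry u) (x, v) (e, w) := by
  have l : ∀ p d : EE n, HasDerivAt (fun t : ℝ => p + t • d) d 0 := fun p d => by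
    simpa using ((hasDerivAt_id (0 : ℝ)).smul_const d).const_add p
  have a1 : HasDerivAt (fun t : ℝ => ‖v + t • w‖) 0 0 := by
    simpa [hw] using (l v w).norm_sq.sqrt (by simp [hv])
  have a2 : HasDerivAt (fun t : ℝ => (x + t • e, ‖v + t • w‖⁻¹ • (v + t • w))) (e, w) 0 :=
    (l x e).prodMk (((a1.inv (by simp [hv])).smul (l v w)).congr_deriv (by simp [hv]))
  have a3 : ∀ t : ℝ, v + t • w ≠ 0 := fun t ht => by
    have := congrArg (⟪v, ·⟫) ht
    simp [inner_add_right, inner_smul_right, hw, hv] at this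
  have a4 : (x, v) = (x + (0 : ℝ) • e, ‖v + (0 : ℝ) • w‖⁻¹ • (v + (0 : ℝ) • w)) := by simp [hv]
  refine (h1.hasFDerivAt.comp_hasDerivAt_of_eq 0 a2 a4).unique ?_
  convert h2.hasFDerivAt.comp_hasDerivAt_of_eq 0 a2 a4 using 1
  exact funext fun t => h _ _ (norm_smul_inv_norm (a3 t))

lemma inner_omv (F : Fr n) (i : Fin n) (x v : EE n) : ⟪v, -F.omv i x v⟫ = 0 := by
  have h : ∑ a, ∑ b, (F.om i a b).1 x * v b * v a = -∑ a, ∑ b, (F.om i a b).1 x * v b * v a := by
    conv_lhs => rw [Finset.sum_comm]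
    simp only [← Finset.sum_neg_distrib]
    refine Finset.sum_congr rfl fun a _ => Finset.sum_congr rfl fun b _ => ?_
    rw [F.skew i b a]
    show -(F.om i a b).1 x * _ * _ = _
    ring
  simp only [inner_neg_right, PiLp.inner_apply, Fr.omv, RCLike.inner_apply, conj_trivial,
    Finset.sum_mul]
  linarith

/-- cocompactness: the derivative of the cut-off is dominated -/
lemma dom {μ : Measure (EE n)} [IsFiniteMeasureOnCompacts μ] {σ : Type} (g : σ → EE n ≃ₜ EE n)
    (mp : ∀ s, MeasurePreserving (g s) μ μ) {χ E : EE n → ℝ} (hχ : Continuous χ)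
    (cχ : HasCompactSupport χ) (hE : Continuous E) (cE : HasCompactSupport E)
    (cov : ∀ x, ∃ s, 1 / 2 < χ ((g s).symm x) ^ 2) (K : σ → ℝ) :
    ∃ K' : ℝ, ∀ N : EE n → ℝ, Continuous N → (∀ x, 0 ≤ N x) → (∀ s x, N (g s x) ≤ K s * N x) →
      ∫ x, E x * N x ∂μ ≤ K' * ∫ x, χ x ^ 2 * N x ∂μ := by
  obtain ⟨t, ht⟩ := cE.isCompact.elim_finite_subcover (fun s => {x | 1 / 2 < χ ((g s).symm x) ^ 2})
    (fun s => isOpen_lt continuous_const (by fun_prop)) fun x _ => Set.mem_iUnion.2 (cov x)
  obtain ⟨C, hC⟩ := hE.bounded_above_of_compact_support cE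
  have C0 : 0 ≤ C := (norm_nonneg _).trans (hC 0)
  have c2 : HasCompactSupport fun x => χ x ^ 2 := cχ.comp_left (g := (· ^ 2)) (by simp)
  refine ⟨2 * C * ∑ s ∈ t, K s, fun N hN N0 hK => ?_⟩
  have i1 : ∀ s, Integrable (fun x => χ ((g s).symm x) ^ 2 * N x) μ := fun s =>
    Continuous.integrable_of_hasCompactSupport (by fun_prop)
      (c2.comp_homeomorph (g s).symm).mul_right
  calc _ ≤ ∫ x, 2 * C * ∑ s ∈ t, χ ((g s).symm x) ^ 2 * N x ∂μ := by
        refine integral_mono ((hE.mul hN).integrable_of_hasCompactSupport cE.mul_right)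
          ((integrable_finsetSum _ fun s _ => i1 s).const_mul _) fun x => ?_
        simp only [← Finset.sum_mul, ← mul_assoc]
        refine mul_le_mul_of_nonneg_right ?_ (N0 x)
        by_cases hx : x ∈ tsupport E
        · obtain ⟨s, hs, h⟩ := Set.mem_iUnion₂.1 (ht hx)
          have := Finset.single_le_sum (f := fun s => χ ((g s).symm x) ^ 2)
            (fun s _ => sq_nonneg _) hs
          have h : 1 / 2 < χ ((g s).symm x) ^ 2 := h
          nlinarith [(le_abs_self _).trans (hC x)]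
        · rw [image_eq_zero_of_notMem_tsupport hx]; positivity
    _ ≤ _ := by
        rw [integral_const_mul, integral_finsetSum _ fun s _ => i1 s, mul_assoc (2 * C),
          Finset.sum_mul]
        refine mul_le_mul_of_nonneg_left (Finset.sum_le_sum fun s _ => ?_) (by positivity)
        rw [← (mp s).integral_comp (g s).measurableEmbedding, ← integral_const_mul]
        simp only [Homeomorph.symm_apply_apply]
        refine integral_mono (Continuous.integrable_of_hasCompactSupport (by fun_prop) c2.mul_right)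
          ((Continuous.integrable_of_hasCompactSupport (by fun_prop) c2.mul_right).const_mul _)
          fun x => ?_
        have := mul_le_mul_of_nonneg_left (hK s x) (sq_nonneg (χ x))
        simp only
        linarith

end Mn

open Mn

theorem carS (h1 : Pol1S) (hR : Rep1S) (hR3 : Rep3S) (hC : CoreS) : CarS := by
  intro n hn F μ κ hG ι _ u k hu hX ⟨R, hR'⟩
  obtain ⟨r1, -, -, r2, -, r3, -⟩ := hR n hn
  obtain ⟨-, s2, s3⟩ := hR3 n hn
  have f0 := (h1 n hn).2.1
  have sm : ∀ a, SmU (ext (u a)) := fun a => ext_sm (hu a)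
  choose P hP using fun a l => r2 l _ (sm a)
  let tr : Sym μ u → Sym μ fun a => ext (u a) := fun s =>
    ⟨s.g, s.mp, s.O, s.B, fun a x v hv => by
      simp only [ext_eq hv, ext_eq ((s.O x).norm_map v ▸ hv :), s.eqv a x v hv]⟩
  choose K K0 hK using fun s => s3 ι μ _ (tr s) sm
  let χ : ContDiffBump (0 : EE n) := ⟨max R 1, max R 1 + 1, by positivity, by linarith⟩
  have c1 : ∀ y, ‖y‖ < R → χ y = 1 := fun y hy =>
    χ.one_of_mem_closedBall (mem_closedBall_zero_iff.2 (hy.le.trans (le_max_left ..)))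
  have := hG.fin
  obtain ⟨K', hK'⟩ := dom (fun s : Sym μ u => s.g) (fun s => s.mp) χ.continuous χ.hasCompactSupport
    (E := fun x => ∑ i, (F.alg.D i ⟨χ, χ.contDiff⟩).1 x ^ 2)
    (continuous_finsetSum _ fun i _ => (Sm.sm _).continuous.pow 2)
    (χ.hasCompactSupport.mono' fun x hx => by_contra fun h => hx (Finset.sum_eq_zero fun i _ => by
      show fderiv ℝ χ x _ ^ 2 = 0
      simp [fderiv_of_notMem_tsupport ℝ h]))
    (fun x => by
      obtain ⟨s, y, hy, rfl⟩ := hR' x
      exact ⟨s, by rw [Homeomorph.symm_apply_apply, c1 y hy]; norm_num⟩) K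
  obtain ⟨D, hD⟩ := hC n hn F μ κ hG ι (fun a => ext (u a)) k P ⟨χ, χ.contDiff⟩ sm
    (fun a x v hv => by
      rw [ext_eq hv, ← hX a x v hv]
      exact Finset.sum_congr rfl fun i _ => congrArg _ (fderiv_tan (fun _ _ => ext_eq) hv
        ((sm a).differentiable (by simp) _) ((hu a x v hv).differentiableAt (by simp)) _
        (inner_omv F i x v)))
    hP χ.hasCompactSupport ⟨K', fun l => hK' _
      (continuous_finsetSum _ fun a _ => by simp only [← r1]; exact (Sm.sm _).continuous)
      (fun x => Finset.sum_nonneg fun a _ => f0 _) fun s x => hK s l _ (fun a => hP a l) x⟩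
  refine ⟨D, fun a l => C (algebraMap ℝ (Sm n) (kp n l)) * P a l,
    fun a l x => (r3 l _ _ _ (hP a l) x).1, fun a x v hv => ?_⟩
  rw [← ext_eq (u := u a) hv, s2 _ _ D x (sm a) (hP a) (fun l hl => ?_) v hv]
  · exact Finset.sum_congr rfl fun l _ => by simp [ax, pfun, evx_apply]
  obtain ⟨s, y, hy, rfl⟩ := hR' x
  have h := hK s l _ (fun a => hP a l) y
  have h0 : ∀ a, ax y (P a l) = 0 := fun a => hD a l y hl (by
    show χ y ≠ 0
    rw [c1 y hy]; exact one_ne_zero)
  simp only [h0, show fis (0 : P0 n) 0 = 0 from rfl, Finset.sum_const_zero, mul_zero] at h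
  exact fis_self_eq_zero (le_antisymm ((Finset.single_le_sum
    (f := fun a => fis (ax (s.g y) (P a l)) (ax (s.g y) (P a l))) (fun a _ => f0 _)
    (Finset.mem_univ a)).trans h) (f0 _))

end Crest.Agent.N221.Car
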