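import Crest.Agent.N221.Car.Defs

/-!
Row 221, block `Car`: the operators `∂_i`, `M_i`, `rot`, `L_ab` on harmonic polynomials (helper38).
-/

set_option autoImplicit false

open MvPolynomial
open Crest.Agent.R086 Crest.Agent.R086.SH

noncomputable section

namespace Crest.Agent.N221.Car

namespace Pol2

variable {n l : ℕ} {p : P0 n}

lemma pd_comm (i j : Fin n) (q : P0 n) : pderiv j (pderiv i q) = pderiv i (pderiv j q) := by
  ext m
  rw [coeff_pderiv, coeff_pderiv, coeff_pderiv, coeff_pderiv, add_right_comm]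
  by_cases hij : i = j
  · rw [hij]
  · simp only [Finsupp.add_apply, Finsupp.single_eq_of_ne hij, Finsupp.single_eq_of_ne' hij, add_zero]
    ring

lemma pd_X_mul (i j : Fin n) (q : P0 n) :
    pderiv i (X j * q) = (if i = j then q else 0) + X j * pderiv i q := by
  rw [pderiv_mul]
  by_cases h : i = j
  · rw [if_pos h, h, pderiv_X_self, one_mul]
  · rw [if_neg h, pderiv_X_of_ne (Ne.symm h), zero_mul]

/-- the Euler operator -/
def eul (q : P0 n) : P0 n := ∑ j, X j * pderiv j q

lemma eul_hom (hp : p.IsHomogeneous l) : eul p = (l : ℝ) • p := by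
  rw [eul, hp.sum_X_mul_pderiv, Nat.cast_smul_eq_nsmul]

lemma eul_pd (hp : p.IsHomogeneous l) (i : Fin n) : eul (pderiv i p) = ((l : ℝ) - 1) • pderiv i p := by
  have h := congrArg (pderiv i) (eul_hom hp)
  rw [eul, map_sum, Derivation.map_smul] at h
  simp only [pd_X_mul, Finset.sum_add_distrib, Finset.sum_ite_eq, Finset.mem_univ, if_true] at h
  rw [sub_smul, one_smul, ← h, add_sub_cancel_left, eul]
  exact Finset.sum_congr rfl fun j _ => by rw [pd_comm]

lemma eul_sum {ι : Type} (s : Finset ι) (f : ι → P0 n) : eul (∑ i ∈ s, f i) = ∑ i ∈ s, eul (f i) := by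
  simp only [eul, map_sum, Finset.mul_sum]
  exact Finset.sum_comm

lemma plap_sum {ι : Type} (s : Finset ι) (f : ι → P0 n) :
    plap (∑ i ∈ s, f i) = ∑ i ∈ s, plap (f i) := by
  simp only [plap, map_sum]
  exact Finset.sum_comm

lemma plap_X_mul (i : Fin n) (q : P0 n) :
    plap (X i * q) = (2 : ℝ) • pderiv i q + X i * plap q := by
  have h : ∀ j, pderiv j (if j = i then q else 0) = if j = i then pderiv j q else 0 := fun j => by
    split_ifs <;> simp
  simp only [plap, pd_X_mul, map_add, h, Finset.sum_add_distrib, Finset.sum_ite_eq', Finset.mem_univ,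
    if_true, Finset.mul_sum, two_smul, add_assoc]

lemma rho_mul (g : P0 n) : rho * g = ∑ j, X j * (X j * g) := by
  simp only [rho, Finset.sum_mul, sq, mul_assoc]

lemma plap_rho_mul (g : P0 n) :
    plap (rho * g) = (2 * n : ℝ) • g + (4 : ℝ) • eul g + rho * plap g := by
  have h : ∀ j : Fin n, plap (X j * (X j * g)) =
      (2 : ℝ) • g + (4 : ℝ) • (X j * pderiv j g) + X j * (X j * plap g) := fun j => by
    rw [plap_X_mul, plap_X_mul, pd_X_mul, if_pos rfl, mul_add, mul_smul_comm]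
    module
  rw [rho_mul, plap_sum, rho_mul, eul]
  simp only [h, Finset.sum_add_distrib, Finset.sum_const, Finset.card_univ, Fintype.card_fin,
    ← Finset.smul_sum, ← Nat.cast_smul_eq_nsmul ℝ, smul_smul, mul_comm (n : ℝ)]

lemma pd_zero (hp : p.IsHomogeneous 0) (i : Fin n) : pderiv i p = 0 := by
  rw [← totalDegree_zero_iff_isHomogeneous] at hp
  rw [totalDegree_eq_zero_iff_eq_C.mp hp, pderiv_C]

lemma hom_X_mul (hp : p.IsHomogeneous l) (i : Fin n) : (X i * p).IsHomogeneous (l + 1) := by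
  rw [add_comm]; exact (isHomogeneous_X ℝ i).mul hp

lemma hom_X_pd (hp : p.IsHomogeneous l) (a b : Fin n) : (X b * pderiv a p).IsHomogeneous l := by
  cases l with
  | zero => rw [pd_zero hp, mul_zero]; exact isHomogeneous_zero _ _ _
  | succ l => exact hom_X_mul (hp.pderiv (i := a)) b

lemma hom_smul (hp : p.IsHomogeneous l) (c : ℝ) : (c • p).IsHomogeneous l := by
  rw [smul_eq_C_mul]; exact hp.C_mul c

lemma plap_pd (hp : Sph.Harm l p) (i : Fin n) : plap (pderiv i p) = 0 := by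
  rw [plap_pderiv, show plap p = 0 from hp.harm, map_zero]

lemma plap_X_pd (hp : Sph.Harm l p) (a b : Fin n) :
    plap (X b * pderiv a p) = (2 : ℝ) • pderiv b (pderiv a p) := by
  rw [plap_X_mul, plap_pd hp, mul_zero, add_zero]

lemma den_pos (hn : 3 ≤ n) (l : ℕ) : 0 < (n : ℝ) + 2 * l - 2 := by
  have h1 : (3 : ℝ) ≤ n := by exact_mod_cast hn
  have h2 : (0 : ℝ) ≤ l := Nat.cast_nonneg l
  linarith

lemma Mi_eq (l : ℕ) (i : Fin n) (p : P0 n) :
    Mi l i p = X i * p - ((n : ℝ) + 2 * l - 2)⁻¹ • (rho * pderiv i p) := rfl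

lemma harm_Mi (hn : 3 ≤ n) (hp : Sph.Harm l p) (i : Fin n) : Sph.Harm (l + 1) (Mi l i p) := by
  rw [Mi_eq]
  refine ⟨(hom_X_mul hp.hom i).sub (hom_smul ?_ _), ?_⟩
  · rw [rho_mul]
    exact IsHomogeneous.sum _ _ _ fun j _ => hom_X_mul (hom_X_pd hp.hom i j) j
  · show plap _ = 0
    rw [plap_sub, plap_smul, plap_X_mul, plap_rho_mul, eul_pd hp.hom, plap_pd hp,
      show plap p = 0 from hp.harm, mul_zero, mul_zero, add_zero, add_zero, smul_smul, ← add_smul,
      smul_smul, ← sub_smul]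
    have := (den_pos hn l).ne'
    rw [show 2 - ((n : ℝ) + 2 * l - 2)⁻¹ * (2 * n + 4 * (l - 1)) = 0 by field_simp; ring, zero_smul]

lemma harm_rot {w : Fin n → Fin n → ℝ} (hw : ∀ a b, w a b = -w b a) (hp : Sph.Harm l p) :
    Sph.Harm l (rot w p) := by
  refine ⟨IsHomogeneous.sum _ _ _ fun a _ => IsHomogeneous.sum _ _ _ fun b _ =>
    (hom_X_pd hp.hom a b).C_mul _, ?_⟩
  show plap _ = 0
  simp only [rot, ← smul_eq_C_mul, plap_sum, plap_smul, plap_X_pd hp]
  have h : ∑ a, ∑ b, w a b • (2 : ℝ) • pderiv b (pderiv a p) =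
      -∑ a, ∑ b, w a b • (2 : ℝ) • pderiv b (pderiv a p) := by
    conv_lhs => rw [Finset.sum_comm]
    simp only [← Finset.sum_neg_distrib]
    exact Finset.sum_congr rfl fun a _ => Finset.sum_congr rfl fun b _ => by
      rw [hw b a, neg_smul, pd_comm]
  exact self_eq_neg.1 h

lemma harm_Lab (hp : Sph.Harm l p) (a b : Fin n) : Sph.Harm l (Lab a b p) := by
  refine ⟨(hom_X_pd hp.hom a b).sub (hom_X_pd hp.hom b a), ?_⟩
  show plap (_ - _) = 0
  rw [plap_sub, plap_X_pd hp, plap_X_pd hp, pd_comm, sub_self]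

lemma div_Lab (hp : Sph.Harm l p) (b : Fin n) :
    ∑ a, pderiv a (Lab a b p) = (2 - (n : ℝ) - l) • pderiv b p := by
  have h1 := eul_pd hp.hom b
  have h2 : ∑ a, pderiv a (pderiv a p) = 0 := hp.harm
  rw [eul] at h1
  simp only [Lab, map_sub, pd_X_mul, if_true, Finset.sum_sub_distrib, Finset.sum_add_distrib,
    Finset.sum_ite_eq', Finset.mem_univ, ← Finset.mul_sum, h1, h2, Finset.sum_const, Finset.card_univ,
    Fintype.card_fin, ← Nat.cast_smul_eq_nsmul ℝ, mul_zero]
  module

lemma sum_Lab (hp : Sph.Harm l p) :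
    ∑ a, ∑ b, Lab a b (Lab a b p) = (-(2 * ((l : ℝ) * (l + n - 2)))) • p := by
  have h : ∀ a b, Lab a b (Lab a b p) =
      X b * pderiv a (Lab a b p) + X a * pderiv b (Lab b a p) := fun a b => by
    rw [show Lab b a p = -Lab a b p from (neg_sub _ _).symm, map_neg, mul_neg, ← sub_eq_add_neg]
    rfl
  have h1 : ∑ b, ∑ a, X b * pderiv a (Lab a b p) = ((2 - (n : ℝ) - l) * l) • p := by
    simp only [← Finset.mul_sum, div_Lab hp, mul_smul_comm, ← Finset.smul_sum]
    rw [show ∑ b, X b * pderiv b p = _ from eul_hom hp.hom, smul_smul]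
  simp only [h, Finset.sum_add_distrib]
  rw [h1, Finset.sum_comm, h1]
  module

lemma fis_comm (p q : P0 n) : fis p q = fis q p := by
  classical
  rw [fis_eq_of_subset p q (S := p.support ∪ q.support) Finset.subset_union_left,
    fis_eq_of_subset q p (S := p.support ∪ q.support) Finset.subset_union_right]
  exact Finset.sum_congr rfl fun a _ => by ring

lemma fis_smul_right (c : ℝ) (p q : P0 n) : fis p (c • q) = c * fis p q := by
  simp only [fis, coeff_smul, smul_eq_mul, Finset.mul_sum]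
  exact Finset.sum_congr rfl fun a _ => by ring

lemma fis_smul_left (c : ℝ) (p q : P0 n) : fis (c • p) q = c * fis p q := by
  rw [fis_comm, fis_smul_right, fis_comm]

lemma fis_add_right (p q q' : P0 n) : fis p (q + q') = fis p q + fis p q' := by
  rw [fis_comm, fis_add_left, fis_comm q, fis_comm q']

lemma fis_nonneg (p : P0 n) : 0 ≤ fis p p :=
  Finset.sum_nonneg fun a _ => by
    rw [mul_assoc]; exact mul_nonneg (mfac_pos a).le (mul_self_nonneg _)

lemma pyth {M : P0 n} (hM : plap M = 0) (c : ℝ) (g : P0 n) :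
    fis (M + c • (rho * g)) (M + c • (rho * g)) = fis M M + c ^ 2 * fis (rho * g) (rho * g) := by
  have h : fis (rho * g) M = 0 := by rw [fis_rho_mul, hM, fis_zero_right]
  rw [fis_add_left, fis_add_right, fis_add_right, fis_smul_right, fis_smul_left, fis_smul_left,
    fis_smul_right, fis_comm M (rho * g), h]
  ring

lemma sum_fis_pd (hp : p.IsHomogeneous l) : ∑ i, fis (pderiv i p) (pderiv i p) = l * fis p p := by
  simp only [← fis_X_mul]
  rw [← fis_sum_left, show ∑ b, X b * pderiv b p = _ from eul_hom hp, fis_smul_left]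

lemma sum_fis_Mi (hn : 3 ≤ n) (hp : Sph.Harm l p) :
    ∑ i, fis (Mi l i p) (Mi l i p) ≤ ((n : ℝ) + l) * fis p p := by
  have h : ∑ i, fis (X i * p) (X i * p) = ((n : ℝ) + l) * fis p p := by
    simp only [fis_X_mul, pd_X_mul, if_true, fis_add_right, Finset.sum_add_distrib, Finset.sum_const,
      Finset.card_univ, Fintype.card_fin, nsmul_eq_mul]
    rw [← fis_sum_right, show ∑ b, X b * pderiv b p = _ from eul_hom hp.hom, fis_smul_right, add_mul]
  rw [← h]
  refine Finset.sum_le_sum fun i _ => ?_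
  have := pyth (harm_Mi hn hp i).harm ((n : ℝ) + 2 * l - 2)⁻¹ (pderiv i p)
  rw [Mi_eq, sub_add_cancel] at this
  rw [this, Mi_eq]
  exact le_add_of_nonneg_right (mul_nonneg (sq_nonneg _) (fis_nonneg _))

lemma fis_split (hn : 3 ≤ n) {w : Fin n → P0 n} (hw : ∀ i, Sph.Harm l (w i)) :
    fis (∑ i, X i * w i) (∑ i, X i * w i) = fis (∑ i, Mi l i (w i)) (∑ i, Mi l i (w i)) +
      2 / ((n : ℝ) + 2 * l - 2) * fis (∑ i, pderiv i (w i)) (∑ i, pderiv i (w i)) := by
  have h1 : ∑ i, X i * w i =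
      ∑ i, Mi l i (w i) + ((n : ℝ) + 2 * l - 2)⁻¹ • (rho * ∑ i, pderiv i (w i)) := by
    simp only [Mi_eq, Finset.sum_sub_distrib, Finset.mul_sum, Finset.smul_sum, sub_add_cancel]
  have h2 : plap (∑ i, Mi l i (w i)) = 0 := by
    rw [plap_sum]; exact Finset.sum_eq_zero fun i _ => (harm_Mi hn (hw i) i).harm
  have h3 : plap (∑ i, pderiv i (w i)) = 0 := by
    rw [plap_sum]; exact Finset.sum_eq_zero fun i _ => plap_pd (hw i) i
  have h4 : eul (∑ i, pderiv i (w i)) = ((l : ℝ) - 1) • ∑ i, pderiv i (w i) := by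
    rw [eul_sum, Finset.smul_sum]; exact Finset.sum_congr rfl fun i _ => eul_pd (hw i).hom i
  have := (den_pos hn l).ne'
  rw [h1, pyth h2, fis_rho_mul, plap_rho_mul, h3, h4, mul_zero, add_zero, smul_smul, ← add_smul,
    fis_smul_right, ← mul_assoc]
  congr 2
  field_simp
  ring

end Pol2

open Pol2

theorem pol2S : Pol2S := fun _ hn _ =>
  ⟨fun _ i hp => harm_Mi hn hp i, fun _ i hp => ⟨hp.hom.pderiv, plap_pd hp i⟩,
    fun _ _ hw hp => harm_rot hw hp, fun _ a b hp => harm_Lab hp a b, fun _ hp => sum_Lab hp,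
    fun _ hp => sum_fis_pd hp, fun _ hp => sum_fis_Mi hn hp, fun _ hw => fis_split hn hw⟩

end Crest.Agent.N221.Car
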