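import Crest.Agent.N221.Car.Defs

/-! Row 221, block `Car`: `Rep` commutes with `∇_i` and with rotations (helper32). -/

set_option autoImplicit false

open MvPolynomial MeasureTheory Function
open scoped ContDiff RealInnerProductSpace Topology
open Crest.Agent.R086 Crest.Agent.R086.SH

noncomputable section

namespace Crest.Agent.N221.Car

namespace R2

variable {n : ℕ}

lemma integ {g : EE n → ℝ} (hg : Continuous g) : Integrable (fun w : Sph n => g w) (sg n) :=
  (hg.comp continuous_subtype_val).integrable_of_hasCompactSupport (HasCompactSupport.of_compactSpace _)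

lemma sI_add {f g : EE n → ℝ} (hf : Continuous f) (hg : Continuous g) :
    sI (fun w => f w + g w) = sI f + sI g := integral_add (integ hf) (integ hg)

lemma sI_sub {f g : EE n → ℝ} (hf : Continuous f) (hg : Continuous g) :
    sI (fun w => f w - g w) = sI f - sI g := integral_sub (integ hf) (integ hg)

/-- differentiation under the spherical integral -/
lemma sI_deriv {H H' : ℝ → EE n → ℝ} (hH : ∀ t w, HasDerivAt (fun t => H t w) (H' t w) t)
    (hc : ∀ t, Continuous (H t)) (hc' : Continuous (uncurry H')) :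
    HasDerivAt (fun t => sI (H t)) (sI (H' 0)) 0 := by
  obtain ⟨C, hC⟩ := ((isCompact_closedBall (0 : ℝ) 1).prod
    (isCompact_sphere (0 : EE n) 1)).exists_bound_of_continuousOn hc'.continuousOn
  exact (hasDerivAt_integral_of_dominated_loc_of_deriv_le (μ := sg n) (bound := fun _ => C)
    (F := fun t w => H t w) (F' := fun t w => H' t w) (Metric.closedBall_mem_nhds 0 one_pos)
    (.of_forall fun t => (integ (hc t)).1) (integ (hc 0)) (integ (hc'.uncurry_left 0)).1
    (.of_forall fun w t ht => hC (t, w) ⟨ht, w.2⟩) (integrable_const _)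
    (.of_forall fun w t _ => hH t w)).2

/-- `w v` -/
def mv (w : Fin n → Fin n → ℝ) : EE n →L[ℝ] EE n := Matrix.toEuclideanCLM (𝕜 := ℝ) (Matrix.of w)

lemma mv_apply (w : Fin n → Fin n → ℝ) (v : EE n) (a : Fin n) : mv w v a = ∑ b, w a b * v b := rfl

/-- the spherical integral of an infinitesimal rotation vanishes -/
lemma sI_rot (hO : ∀ (O : EE n ≃ₗᵢ[ℝ] EE n) (g : EE n → ℝ), sI (fun w => g (O w)) = sI g)
    {w : Fin n → Fin n → ℝ} (hw : ∀ a b, w a b = -w b a) {g : EE n → ℝ} (hg : ContDiff ℝ ∞ g) :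
    sI (fun v => fderiv ℝ g v (mv w v)) = 0 := by
  let _ : NormedAlgebra ℚ (EE n →L[ℝ] EE n) := .restrictScalars ℚ ℝ _
  have hs : mv w ∈ skewAdjoint (EE n →L[ℝ] EE n) := by
    rw [skewAdjoint.mem_iff, mv, ← map_star, ← map_neg]
    congr 1
    ext a b
    exact hw b a
  have hd := hasDerivAt_exp_smul_const (𝕂 := ℝ) (mv w)
  have hc : Continuous fun t : ℝ => NormedSpace.exp (t • mv w) :=
    continuous_iff_continuousAt.2 fun t => (hd t).continuousAt
  have hf := hg.continuous_fderiv (by simp)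
  have := sI_deriv (H := fun t v => g (NormedSpace.exp (t • mv w) v))
    (H' := fun t v => fderiv ℝ g (NormedSpace.exp (t • mv w) v) (NormedSpace.exp (t • mv w) (mv w v)))
    (fun t v => (hg.differentiable (by simp) _).hasFDerivAt.comp_hasDerivAt t
      (by simpa using (hd t).clm_apply (hasDerivAt_const t v)))
    (fun t => hg.continuous.comp (ContinuousLinearMap.continuous _)) (by unfold uncurry; fun_prop)
  rw [show (fun t : ℝ => sI fun v => g (NormedSpace.exp (t • mv w) v)) = fun _ => sI g from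
    funext fun t => hO (Unitary.linearIsometryEquiv ⟨_,
      NormedSpace.exp_mem_unitary_of_mem_skewAdjoint (skewAdjoint.smul_mem t hs)⟩) g] at this
  have e : NormedSpace.exp ((0 : ℝ) • mv w) = 1 := by
    rw [show (0 : ℝ) • mv w = 0 from zero_smul ℝ (mv w), NormedSpace.exp_zero]
  simpa [e] using this.unique (hasDerivAt_const _ _)

lemma pfun_rot (w : Fin n → Fin n → ℝ) (p : P0 n) (v : EE n) :
    pfun (rot w p) v = fderiv ℝ (pfun p) v (mv w v) := by
  rw [(hasFDerivAt_pfun p v).fderiv]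
  simp only [rot, pfun, map_sum, map_mul, eval_C, eval_X, _root_.sum_apply,
    _root_.smul_apply, PiLp.proj_apply, mv_apply, smul_eq_mul, Finset.mul_sum]
  exact Finset.sum_congr rfl fun _ _ => Finset.sum_congr rfl fun _ _ => by ring

lemma ax_rot (x : EE n) (w : Fin n → Fin n → Sm n) (P : PP n) :
    ax x (rot w P) = rot (fun a b => (w a b).1 x) (ax x P) := by
  simp [ax, rot, pderiv_map, evx_apply]

lemma cD_pderiv {A : Type} [CommRing A] [Algebra ℝ A] (D : Derivation ℝ A A) (i : Fin n)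
    (p : MvPolynomial (Fin n) A) : pderiv i (cD D p) = cD D (pderiv i p) := by
  ext s
  simp [coeff_pderiv, coeff_cD, mul_comm]

/-- the matrix of `Lab` -/
def eab (a b : Fin n) : Fin n → Fin n → ℝ := fun c d =>
  (if c = a ∧ d = b then 1 else 0) - if c = b ∧ d = a then 1 else 0

lemma eab_skew (a b c d : Fin n) : eab a b c d = -eab a b d c := by simp [eab, and_comm]

lemma rot_eab (a b : Fin n) (p : P0 n) : rot (eab a b) p = Lab a b p := by
  simp [rot, eab, Lab, sub_mul, Finset.sum_sub_distrib, ite_and, apply_ite C]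

lemma mv_eab (a b : Fin n) (v : EE n) : mv (eab a b) v =
    v b • EuclideanSpace.single a (1 : ℝ) - v a • EuclideanSpace.single b (1 : ℝ) := by
  ext c
  simp [mv_apply, eab, sub_mul, Finset.sum_sub_distrib, ite_and]

variable {U : EE n → EE n → ℝ} {l : ℕ} {P : PP n}

lemma smU_dir (hU : SmU U) {Z : EE n × EE n → EE n × EE n} (hZ : ContDiff ℝ ∞ Z) :
    SmU fun x v => fderiv ℝ (uncurry U) (x, v) (Z (x, v)) :=
  (ContDiff.fderiv_right hU (m := ∞) (by simp)).clm_apply hZ

lemma cont_dir (hU : SmU U) (x : EE n) {Z : EE n → EE n × EE n} (hZ : Continuous Z) (p : P0 n) :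
    Continuous fun v => fderiv ℝ (uncurry U) (x, v) (Z v) * pfun p v := by
  have := ContDiff.continuous_fderiv hU (by simp)
  have := continuous_pfun p
  fun_prop

lemma rep_rot (hn : 3 ≤ n) (h1 : Pol1S) (h2 : Pol2S) (h3 : Pol3S) (hU : SmU U) (hP : Rep l U P)
    (x : EE n) {w : Fin n → Fin n → ℝ} (hw : ∀ a b, w a b = -w b a) {p : P0 n} (hp : Sph.Harm l p) :
    fis (rot w (ax x P)) p = sI fun v => fderiv ℝ (uncurry U) (x, v) (0, mv w v) * pfun p v := by
  obtain ⟨sy, -, -, sm, -⟩ := h1 n hn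
  have e1 : ∀ q r : P0 n, fis (rot w q) r = ∑ a, ∑ b, w a b * fis (pderiv a q) (pderiv b r) :=
    fun q r => by simp only [rot, fis_sum_left, C_mul', sm, fis_X_mul]
  have e2 : fis (rot w (ax x P)) p + fis (ax x P) (rot w p) = 0 := by
    rw [sy (ax x P), e1, e1, Finset.sum_comm, ← Finset.sum_add_distrib]
    refine Finset.sum_eq_zero fun a _ => ?_
    rw [← Finset.sum_add_distrib]
    exact Finset.sum_eq_zero fun b _ => by rw [hw b a, sy]; ring
  have hx : ContDiff ℝ ∞ (U x) := ContDiff.comp (g := uncurry U) hU (contDiff_prodMk_right x)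
  have hq : ContDiff ℝ ∞ (pfun p) := (contDiff_pfun p).of_le le_top
  have e3 := sI_rot (h3 n hn).2.2 hw (hx.mul hq)
  rw [(hP x).2 _ ((h2 n hn l).2.2.1 p w hw hp), ← e3] at e2
  refine (eq_sub_of_add_eq e2).trans ?_
  rw [sub_eq_iff_eq_add, ← sI_add (cont_dir hU x (Z := fun v => (0, mv w v)) (by fun_prop) p)
    (hx.continuous.fun_mul (continuous_pfun _))]
  congr 1
  funext v
  have e4 := ((ContDiff.differentiable hU (by simp) (x, v)).hasFDerivAt.comp v
    (hasFDerivAt_prodMk_right x v)).mul (hq.differentiable (by simp) v).hasFDerivAt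
  rw [pfun_rot, show fderiv ℝ (fun v => U x v * pfun p v) v = _ from e4.fderiv]
  simp [mul_comm, add_comm]

lemma rep_dir (hn : 3 ≤ n) (h1 : Pol1S) (hR : Rep1S) (hU : SmU U) (hP : Rep l U P) {e : EE n → EE n}
    (he : ContDiff ℝ ∞ e) (x : EE n) : Sph.Harm l (ax x (cD (dir e he) P)) ∧ ∀ p, Sph.Harm l p →
      fis (ax x (cD (dir e he) P)) p = sI fun v => fderiv ℝ (uncurry U) (x, v) (e x, 0) * pfun p v := by
  have pl : ∀ y (Q : PP n), Sph.plap (ax y Q) = ax y (∑ i, pderiv i (pderiv i Q)) := fun y Q => by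
    simp [Sph.plap, ax, pderiv_map]
  refine ⟨⟨fun s hs => by_contra fun h => hs ?_, ?_⟩, fun p hp => ?_⟩
  · have : coeff s P = 0 := Subtype.ext (funext fun y => by_contra fun h' => h ((hP y).1.hom
      (by rwa [ax, coeff_map])))
    rw [ax, coeff_map, coeff_cD, this, map_zero, map_zero]
  · simp only [pl, cD_pderiv, ← map_sum]
    rw [(hR n hn).2.1 (∑ i, pderiv i (pderiv i P)) 0 fun y => by
      rw [← pl, (hP y).1.harm, ax, map_zero], map_zero, ax, map_zero]
  have hl : ∀ t : ℝ, HasDerivAt (fun t : ℝ => x + t • e x) (e x) t := fun t => by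
    simpa using ((hasDerivAt_id t).smul_const (e x)).const_add x
  have hf := ContDiff.continuous_fderiv hU (by simp)
  have hc := ContDiff.continuous hU
  have hq := continuous_pfun p
  have d1 := sI_deriv (H := fun t v => U (x + t • e x) v * pfun p v)
    (H' := fun t v => fderiv ℝ (uncurry U) (x + t • e x, v) (e x, 0) * pfun p v)
    (fun t v => ((ContDiff.differentiable hU (by simp) _).hasFDerivAt.comp_hasDerivAt t
      ((hl t).prodMk (hasDerivAt_const t v))).mul_const _)
    (fun t => (hc.uncurry_left _).mul hq) (by unfold uncurry at *; fun_prop)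
  have d2 : HasDerivAt (fun t : ℝ => fis p (ax (x + t • e x) P)) (fis p (ax x (cD (dir e he) P))) 0 := by
    refine HasDerivAt.fun_sum fun s _ => HasDerivAt.const_mul _ ?_
    simp only [ax, coeff_map, coeff_cD, evx_apply, dir_apply]
    exact ((Sm.sm (coeff s P)).differentiable (by simp) x).hasFDerivAt.comp_hasDerivAt_of_eq 0 (hl 0)
      (by simp)
  simp only [← fun y => (hP y).2 p hp, (h1 n hn).1 _ p, zero_smul, add_zero] at d1 ⊢
  exact d2.unique d1

end R2
open R2

theorem rep2S (h1 : Pol1S) (h2 : Pol2S) (h3 : Pol3S) (hR : Rep1S) : Rep2S := by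
  intro n hn U hU
  refine ⟨fun a b => ⟨smU_dir hU (Z := fun q => (0, q.2 b • EuclideanSpace.single a (1 : ℝ) -
      q.2 a • EuclideanSpace.single b (1 : ℝ))) (by fun_prop), fun l P hP x => ?_⟩,
    fun F i => ⟨smU_dir hU (Z := fun q => (F.e i q.1, -F.omv i q.1 q.2)) ?_, fun l P hP x => ?_⟩⟩
  · rw [show ax x (Lab a b P) = Lab a b (ax x P) by simp [ax, Lab, pderiv_map]]
    refine ⟨(h2 n hn l).2.2.2.1 _ a b (hP x).1, fun p hp => ?_⟩
    rw [← rot_eab, rep_rot hn h1 h2 h3 hU hP x (eab_skew a b) hp]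
    simp only [mv_eab, LU]
  · have := F.e_sm i
    have := fun a b => Sm.sm (F.om i a b)
    refine ContDiff.prodMk (by fun_prop) (ContDiff.neg (contDiff_euclidean.2 fun a => ?_))
    simp only [Fr.omv]
    fun_prop
  · have hw : ∀ a b, (F.om i a b).1 x = -(F.om i b a).1 x := fun a b => by rw [F.skew]; rfl
    obtain ⟨k1, k2⟩ := rep_dir hn h1 hR hU hP (F.e_sm i) x
    have k3 := (h2 n hn l).2.2.1 _ _ hw (hP x).1
    rw [show ax x (F.alg.nab i P) = ax x (cD (dir _ (F.e_sm i)) P) - ax x (rot (F.om i) P) from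
      map_sub _ _ _, ax_rot]
    refine ⟨⟨k1.hom.sub k3.hom, by rw [Sph.plap_sub, k1.harm, k3.harm, sub_zero]⟩, fun p hp => ?_⟩
    rw [eq_sub_of_add_eq ((fis_add_left _ _ p).symm.trans (congrArg (fis · p) (sub_add_cancel _ _))),
      k2 p hp, rep_rot hn h1 h2 h3 hU hP x hw hp,
      ← sI_sub (cont_dir hU x (by fun_prop) p) (cont_dir hU x (by fun_prop) p)]
    congr 1
    funext v
    rw [← sub_mul, ← map_sub, Prod.mk_sub_mk, sub_zero, zero_sub]
    rfl

end Crest.Agent.N221.Car
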