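import Crest.Agent.N221.Car.Defs

/-! Row 221, block `Car`: decay of the components, completeness, invariance (helper3). -/

set_option autoImplicit false

open MvPolynomial MeasureTheory Function
open scoped ContDiff RealInnerProductSpace
open Crest.Agent.R086 Crest.Agent.R086.SH

noncomputable section

namespace Crest.Agent.N221.Car

namespace Rep3

variable {n : ℕ}

theorem int_sph {g : EE n → ℝ} (hg : Continuous g) : Integrable (fun w : Sph n => g w) (sg n) :=
  (hg.comp continuous_subtype_val).integrable_of_hasCompactSupport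
    (HasCompactSupport.of_compactSpace _)

theorem sI_congr {f g : EE n → ℝ} (h : ∀ v, ‖v‖ = 1 → f v = g v) : sI f = sI g :=
  integral_congr_ae (Filter.Eventually.of_forall fun w : Sph n =>
    h w (mem_sphere_zero_iff_norm.1 w.2))

theorem sI_sum {ι : Type} (s : Finset ι) (c : ι → ℝ) {g : ι → EE n → ℝ}
    (hg : ∀ i, Continuous (g i)) : sI (fun w => ∑ i ∈ s, c i * g i w) = ∑ i ∈ s, c i * sI (g i) := by
  unfold sI
  rw [integral_finsetSum _ fun i _ => (int_sph (hg i)).const_mul (c i)]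
  simp only [integral_const_mul]

theorem complete (hn : 3 ≤ n) {f g : EE n → ℝ} (hf : Continuous f) (hg : Continuous g)
    (h : ∀ (m : ℕ) (p : P0 n), Sph.Harm m p →
      (sI fun w => f w * pfun p w) = sI fun w => g w * pfun p w) {v : EE n} (hv : ‖v‖ = 1) :
    f v = g v := by
  have : NeZero n := ⟨by omega⟩
  refine sub_eq_zero.1 (complete_real (fun w => f w - g w) (by fun_prop) (fun m p hp hp' => ?_)
    ⟨v, mem_sphere_zero_iff_norm.2 hv⟩)
  simp only [sub_mul]
  rw [integral_sub (int_sph (g := fun w => f w * pfun p w) (hf.mul (continuous_pfun p)))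
    (int_sph (g := fun w => g w * pfun p w) (hg.mul (continuous_pfun p))), sub_eq_zero]
  exact h m p ⟨hp, hp'⟩

theorem sI_sq_nonneg (g : EE n → ℝ) : 0 ≤ sI fun w => g w ^ 2 :=
  integral_nonneg fun _ => sq_nonneg _

/-- Cauchy-Schwarz on the sphere -/
theorem sI_cs {f g : EE n → ℝ} (hf : Continuous f) (hg : Continuous g) :
    (sI fun w => f w * g w) ^ 2 ≤ (sI fun w => f w ^ 2) * sI fun w => g w * g w := by
  have h := discrim_le_zero (a := sI fun w => g w * g w) (b := 2 * sI fun w => f w * g w)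
    (c := sI fun w => f w ^ 2) fun t => by
      have h0 := sI_sq_nonneg fun w => f w + t * g w
      have h1 := sI_sum Finset.univ ![t * t, 2 * t, 1]
        (g := ![fun w => g w * g w, fun w => f w * g w, fun w => f w ^ 2]) (fun i => by
          fin_cases i <;> simp <;> fun_prop)
      simp only [Fin.sum_univ_three, Matrix.cons_val] at h1
      rw [sI_congr (g := fun w => t * t * (g w * g w) + 2 * t * (f w * g w) + 1 * f w ^ 2)
        (fun v _ => by ring), h1] at h0
      linarith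
  rw [discrim] at h
  linarith

theorem le_of_sq {f a : ℝ} (hf : 0 ≤ f) (ha : 0 ≤ a) (h : f ^ 2 ≤ a * f) : f ≤ a := by
  rcases hf.eq_or_lt with rfl | hf
  · exact ha
  · exact le_of_mul_le_mul_right (by linarith) hf

theorem cont_U {U : EE n → EE n → ℝ} (h : SmU U) (x : EE n) : Continuous (U x) :=
  h.continuous.comp (Continuous.prodMk_right x)

/-- Bessel for one component -/
theorem basic (h1 : Pol1S) (hn : 3 ≤ n) {l : ℕ} {U : EE n → EE n → ℝ} {P : PP n} (hU : SmU U)
    (h : Rep l U P) (x : EE n) : kp n l * fis (ax x P) (ax x P) ≤ sI fun w => U x w ^ 2 := by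
  obtain ⟨-, a2, -, -, -, -, -, a8, -, a10, -⟩ := h1 n hn
  have b1 := sI_cs (cont_U hU x) (continuous_pfun (ax x P))
  rw [← (h x).2 _ (h x).1] at b1
  have b2 := a10 l _ _ (h x).1 (h x).1
  refine le_of_sq (mul_nonneg (a8 l).le (a2 _)) (sI_sq_nonneg _) ?_
  calc _ = kp n l ^ 2 * fis (ax x P) (ax x P) ^ 2 := by ring
    _ ≤ kp n l ^ 2 * ((sI fun w => U x w ^ 2) * sI fun w => pfun (ax x P) w * pfun (ax x P) w) := by
        gcongr
    _ = _ := by rw [b2]; ring

theorem ax_Lab (x : EE n) (a b : Fin n) (P : PP n) : ax x (Lab a b P) = Lab a b (ax x P) := by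
  simp only [ax, Lab, map_sub, map_mul, map_X, pderiv_map]

theorem LU_zero {U : EE n → EE n → ℝ} (hU : SmU U) {x : EE n} (h : ∀ v, U x v = 0) (a b : Fin n)
    (v : EE n) : LU a b U x v = 0 := by
  have h1 := (hU.differentiable (by simp) (x, v)).hasFDerivAt.comp v
    (hasFDerivAt_prodMk_right (𝕜 := ℝ) x v)
  have h2 : HasFDerivAt (uncurry U ∘ fun e => (x, e)) (0 : EE n →L[ℝ] ℝ) v := by
    rw [show (uncurry U ∘ fun e => (x, e)) = fun _ => 0 from funext h]
    exact hasFDerivAt_const _ _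
  exact congrArg (fun L : EE n →L[ℝ] ℝ => L _) (h1.unique h2)

/-- iterates of the spherical Laplacian -/
theorem iter (h2 : Pol2S) (hR : Rep1S) (hR2 : Rep2S) (hn : 3 ≤ n) {U : EE n → EE n → ℝ} (hU : SmU U)
    (N : ℕ) : ∃ V : EE n → EE n → ℝ, SmU V ∧ (∀ x, (∀ v, U x v = 0) → ∀ v, V x v = 0) ∧
      ∀ l P, Rep l U P → ∃ Q, Rep l V Q ∧
        ∀ x, ax x Q = (-(2 * ((l : ℝ) * (l + n - 2)))) ^ N • ax x P := by
  induction N with
  | zero => exact ⟨U, hU, fun _ h => h, fun l P h => ⟨P, h, fun x => by simp⟩⟩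
  | succ N ih =>
    obtain ⟨V, a1, a2, a3⟩ := ih
    have b1 := fun a b => ((hR2 n hn V a1).1 a b).1
    have b2 := fun a b => ((hR2 n hn _ (b1 a b)).1 a b).1
    refine ⟨fun x v => ∑ p : Fin n × Fin n, LU p.1 p.2 (LU p.1 p.2 V) x v, ?_, fun x h v => ?_,
      fun l P h => ?_⟩
    · exact ContDiff.sum (f := fun (p : Fin n × Fin n) => uncurry (LU p.1 p.2 (LU p.1 p.2 V)))
        fun p _ => b2 p.1 p.2
    · exact Finset.sum_eq_zero fun p _ => LU_zero (b1 _ _) (LU_zero a1 (a2 x h) _ _) _ _ _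
    · obtain ⟨Q, c1, c2⟩ := a3 l P h
      refine ⟨∑ p : Fin n × Fin n, Lab p.1 p.2 (Lab p.1 p.2 Q),
        (hR n hn).2.2.2.2.2.2.1 l _ _ _ _ (fun p _ => b2 p.1 p.2) fun p _ =>
          ((hR2 n hn _ (b1 _ _)).1 _ _).2 l _ (((hR2 n hn V a1).1 _ _).2 l Q c1), fun x => ?_⟩
      rw [ax, map_sum, Fintype.sum_prod_type]
      simp only [← ax.eq_1, ax_Lab]
      rw [(h2 n hn l).2.2.2.2.1 _ (c1 x).1, c2, smul_smul, pow_succ']

end Rep3

open Rep3 in
theorem rep3S (h1 : Pol1S) (h2 : Pol2S) (h3 : Pol3S) (hR : Rep1S) (hR2 : Rep2S) : Rep3S := by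
  intro n hn
  obtain ⟨a1, a2, a3, a4, -, -, -, a8, -, a10, a11⟩ := h1 n hn
  refine ⟨fun U hU N => ?_, fun U P D x hU hP hD v hv => ?_, fun ι _ μ u s hu => ?_⟩
  · obtain ⟨V, b1, b2, b3⟩ := iter h2 hR hR2 hn hU N
    refine ⟨V, b1, b2, fun l P h x => ?_⟩
    obtain ⟨Q, c1, c2⟩ := b3 l P h
    refine le_trans ?_ (basic h1 hn b1 c1 x)
    rw [c2, a4, a1 (ax x P) (_ • _), a4, ← mul_assoc ((-_) ^ N), ← mul_pow,
      mul_left_comm (kp n l)]
    refine mul_le_mul_of_nonneg_right (pow_le_pow_left₀ (by positivity) ?_ N)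
      (mul_nonneg (a8 l).le (a2 _))
    have e1 : (3 : ℝ) ≤ n := by exact_mod_cast hn
    rcases Nat.eq_zero_or_pos l with rfl | hl
    · simp
    · have e2 : (1 : ℝ) ≤ l := by exact_mod_cast hl
      have e3 : (l : ℝ) ≤ 2 * (l * (l + n - 2)) := by nlinarith
      nlinarith
  · have hc : ∀ l (p : P0 n), Continuous fun w => pfun (ax x (P l)) w * pfun p w := fun l p =>
      (continuous_pfun _).mul (continuous_pfun _)
    refine complete hn (cont_U hU x) (g := fun w => ∑ l ∈ Finset.range D,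
      kp n l * pfun (ax x (P l)) w) (continuous_finsetSum _ fun l _ =>
        continuous_const.mul (continuous_pfun _)) (fun m p hm => ?_) hv
    simp only [Finset.sum_mul, mul_assoc]
    refine ((hP m x).2 p hm).symm.trans (Eq.trans ?_ (sI_sum _ _ fun l => hc l p).symm)
    rw [Finset.sum_eq_single m (fun l _ hl => by rw [a11 l m _ _ (hP l x).1 hm hl, mul_zero])
      (fun h => by
        rw [← a10 m _ _ (hP m x).1 hm, hD m (by simpa using h), a1, fis_zero_right]),
      a10 m _ _ (hP m x).1 hm]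
  · obtain ⟨-, b2, b3⟩ := h3 n hn
    refine ⟨∑ a, ∑ b, s.B a b ^ 2, by positivity, fun l P hP x => ?_⟩
    rw [Finset.sum_mul]
    refine Finset.sum_le_sum fun a _ => ?_
    obtain ⟨c1, c2⟩ := hP a (s.g x)
    obtain ⟨q, d1, d2⟩ := b2 (s.O x) l _ c1
    have e1 : fis q q = fis (ax (s.g x) (P a)) (ax (s.g x) (P a)) := by
      rw [a10 l _ _ d1 d1, a10 l _ _ c1 c1, ← b3 (s.O x) fun w => pfun (ax _ _) w * pfun (ax _ _) w]
      simp only [d2]
    have e2 : fis q q = ∑ b, s.B a b * fis (ax x (P b)) q := by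
      rw [e1, c2 _ c1, ← b3 (s.O x), sI_congr (g := fun w => ∑ b, s.B a b * (u b x w * pfun q w))
        (fun v hv => by simp only [s.eqv a x v hv, d2, Finset.sum_mul, mul_assoc]),
        sI_sum _ _ (g := fun b w => u b x w * pfun q w)
          fun b => (cont_U (hu b) x).mul (continuous_pfun q)]
      exact Finset.sum_congr rfl fun b _ => by rw [(hP b x).2 q d1]
    rw [← e1]
    refine le_of_sq (a2 _) (mul_nonneg (by positivity) (Finset.sum_nonneg fun b _ => a2 _)) ?_
    calc fis q q ^ 2 = (∑ b, s.B a b * fis (ax x (P b)) q) ^ 2 := by rw [← e2]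
      _ ≤ (∑ b, s.B a b ^ 2) * ∑ b, fis (ax x (P b)) q ^ 2 := Finset.sum_mul_sq_le_sq_mul_sq _ _ _
      _ ≤ (∑ b, s.B a b ^ 2) * ∑ b, fis (ax x (P b)) (ax x (P b)) * fis q q := by
          gcongr with b
          exact a3 _ _
      _ = _ := by rw [← Finset.sum_mul, mul_assoc]

end Crest.Agent.N221.Car
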