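import Crest.Agent.N221.Car.Defs

/-!
Row 221, block `Car`: the weighted summation `SumS`.

With `β l = l^t (l-2) b l`, `s l = l^(t+2) m l` the potential
`Φ l = β l + β (l+1) + κ/4 (2 s l + s (l+1))` is nonnegative, monotone from `D` on and tends to `0`.
-/

set_option autoImplicit false

open Filter Topology

noncomputable section

namespace Crest.Agent.N221.Car

namespace WSum

lemma decay {f : ℕ → ℝ} (h0 : ∀ l, 0 ≤ f l) {N : ℕ} {B : ℝ} (h : ∀ l : ℕ, (l : ℝ) ^ (N + 1) * f l ≤ B) :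
    Tendsto (fun l : ℕ => (l : ℝ) ^ N * f l) atTop (𝓝 0) := by
  refine squeeze_zero' (Eventually.of_forall fun l => by have := h0 l; positivity) ?_
    (tendsto_const_div_atTop_nhds_zero_nat B)
  filter_upwards [eventually_gt_atTop 0] with l hl
  have : (0 : ℝ) < l := by exact_mod_cast hl
  rw [le_div_iff₀ this]
  exact le_trans (le_of_eq (by ring)) (h l)

lemma bern {x T : ℝ} {t : ℕ} (hx : 0 < x) (hT : T ≤ 2 * t) : x ^ t * (x + T) ≤ (x + 2) ^ t * x := by
  have h1 := one_add_mul_le_pow (a := 2 / x) (le_trans (by norm_num) (by positivity : 0 ≤ 2 / x)) t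
  have h2 : (x + 2) ^ t = x ^ t * (1 + 2 / x) ^ t := by
    rw [← mul_pow]; congr 1; field_simp
  have h3 : x + T ≤ (1 + 2 / x) ^ t * x := by
    refine le_trans ?_ (mul_le_mul_of_nonneg_right h1 hx.le)
    have : (1 + t * (2 / x)) * x = x + 2 * t := by field_simp
    linarith
  rw [h2, mul_assoc]
  exact mul_le_mul_of_nonneg_left h3 (by positivity)

end WSum

open WSum in
theorem sumS : SumS := by
  intro b m κ K hκ hK hb hm hd H
  obtain ⟨T, hT1, hT⟩ : ∃ T : ℝ, 1 ≤ T ∧ 8 * K / κ ≤ T := ⟨_, le_max_left _ _, le_max_right _ _⟩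
  obtain ⟨t, ht⟩ := exists_nat_ge T
  rw [div_le_iff₀ hκ] at hT
  set β : ℕ → ℝ := fun l => (l : ℝ) ^ t * ((l : ℝ) - 2) * b l with hβ
  set s : ℕ → ℝ := fun l => (l : ℝ) ^ (t + 2) * m l with hs
  have s0 : ∀ l, 0 ≤ s l := fun l => by have := hm l; simp only [hs]; positivity
  have β0 : ∀ l, 2 ≤ l → 0 ≤ β l := fun l hl => by
    have h1 : (0 : ℝ) ≤ (l : ℝ) - 2 := sub_nonneg.2 (by exact_mod_cast hl)
    have := hb l
    simp only [hβ]; positivity
  have step : ∀ l, t + 2 ≤ l → β l + κ * s l ≤ β (l + 2) + κ / 4 * (s l + s (l + 1) + s (l + 2)) := by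
    intro l hl
    have hl' : (t : ℝ) + 2 ≤ l := by exact_mod_cast hl
    have h0 : (0 : ℝ) < l := by linarith
    have h1 := mul_le_mul_of_nonneg_left (H T hT1 l (by omega))
      (show (0 : ℝ) ≤ (l : ℝ) ^ (t + 1) by positivity)
    have e1 : (l : ℝ) ^ (t + 1) * ((1 - 2 / (l : ℝ)) * b l + κ * l * m l) = β l + κ * s l := by
      simp only [hβ, hs]; field_simp; ring
    have e2 : (l : ℝ) ^ (t + 1) * ((1 + T / l) * b (l + 2)) ≤ β (l + 2) := by
      have := mul_le_mul_of_nonneg_right (bern (t := t) h0 (show T ≤ 2 * t by linarith)) (hb (l + 2))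
      simp only [hβ]
      push_cast
      refine le_trans (le_of_eq ?_) (this.trans_eq (by ring))
      field_simp; ring
    have e3 : (1 + l / T) * K ≤ κ / 4 * l := by
      have a1 : K / T ≤ κ / 8 := by rw [div_le_div_iff₀ (by linarith) (by norm_num)]; linarith
      have a2 : K ≤ κ / 8 * l := by nlinarith
      have a3 := mul_le_mul_of_nonneg_right a1 h0.le
      calc _ = K + K / T * l := by ring
        _ ≤ _ := by linarith
    have e4 : ∀ i : ℕ, (l : ℝ) ^ (t + 2) * m (l + i) ≤ s (l + i) := fun i =>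
      mul_le_mul_of_nonneg_right (by gcongr; omega) (hm _)
    have e5 : (l : ℝ) ^ (t + 1) * ((1 + l / T) * K * (m l + m (l + 1) + m (l + 2))) ≤
        κ / 4 * (s l + s (l + 1) + s (l + 2)) := by
      have a1 := hm l
      have a2 := hm (l + 1)
      have a3 := hm (l + 2)
      calc _ ≤ (l : ℝ) ^ (t + 1) * (κ / 4 * l * (m l + m (l + 1) + m (l + 2))) := by gcongr
        _ = κ / 4 * ((l : ℝ) ^ (t + 2) * m l + (l : ℝ) ^ (t + 2) * m (l + 1) +
            (l : ℝ) ^ (t + 2) * m (l + 2)) := by ring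
        _ ≤ _ := by gcongr; exacts [e4 1, e4 2]
    rw [e1, mul_add] at h1
    linarith
  set Φ : ℕ → ℝ := fun l => β l + β (l + 1) + κ / 4 * (2 * s l + s (l + 1)) with hΦ
  have mono : ∀ l, t + 2 ≤ l → ∀ k, l ≤ k → Φ l ≤ Φ k := fun l hl k hk => by
    induction k, hk using Nat.le_induction with
    | base => exact le_rfl
    | succ k hk ih =>
      have h1 := step k (hl.trans hk)
      have h2 := mul_nonneg hκ.le (s0 k)
      simp only [hΦ] at ih ⊢
      linarith
  have ls : Tendsto s atTop (𝓝 0) := (hd (t + 3)).elim fun B h => decay hm fun l => (h l).2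
  have lβ : Tendsto β atTop (𝓝 0) := by
    obtain ⟨B, h⟩ := hd (t + 2)
    refine squeeze_zero' ((eventually_ge_atTop 2).mono β0) (Eventually.of_forall fun l => ?_)
      (decay hb fun l => (h l).1)
    have := hb l
    simp only [hβ]
    rw [pow_succ]
    gcongr
    linarith
  have lΦ : Tendsto Φ atTop (𝓝 0) := by
    have := (lβ.add (lβ.comp (tendsto_add_atTop_nat 1))).add
      (((ls.const_mul 2).add (ls.comp (tendsto_add_atTop_nat 1))).const_mul (κ / 4))
    simpa using this
  refine ⟨t + 2, fun l hl => ?_⟩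
  have h1 : Φ l ≤ 0 := ge_of_tendsto lΦ ((eventually_ge_atTop l).mono (mono l hl))
  have h2 := β0 l (by omega)
  have h3 := β0 (l + 1) (by omega)
  have h4 := mul_nonneg hκ.le (s0 (l + 1))
  have h5 : κ * s l ≤ 0 := by simp only [hΦ] at h1; linarith
  have h6 : s l = 0 := le_antisymm (nonpos_of_mul_nonpos_right h5 hκ) (s0 l)
  have h0 : (l : ℝ) ≠ 0 := by exact_mod_cast (show l ≠ 0 by omega)
  exact (mul_eq_zero.1 h6).resolve_left (pow_ne_zero _ h0)

end Crest.Agent.N221.Car
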