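import Crest.Agent.N221.Car.Defs

/-! Row 221, block `Car`: the Weitzenböck identity (pure algebra) -/

set_option autoImplicit false

open MvPolynomial
open Crest.Agent.R086 Crest.Agent.R086.SH

noncomputable section

namespace Crest.Agent.N221.Car

namespace Wz

variable {n : ℕ} {A : Type} [CommRing A] [Algebra ℝ A]

local notation "P" => MvPolynomial (Fin n) A

/-! ### the Fischer pairing -/

theorem fis_of_subset (p q : P) {S : Finset (Fin n →₀ ℕ)} (hS : p.support ⊆ S) :
    fisA p q = ∑ s ∈ S, mfac s • (coeff s p * coeff s q) :=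
  Finset.sum_subset hS fun a _ ha => by rw [notMem_support_iff.1 ha, zero_mul, smul_zero]

theorem fis_comm (p q : P) : fisA p q = fisA q p := by
  classical
  rw [fis_of_subset p q (S := p.support ∪ q.support) Finset.subset_union_left,
    fis_of_subset q p (S := p.support ∪ q.support) Finset.subset_union_right]
  simp only [mul_comm]

/-- the pairing as a linear map of the right argument -/
def fisR (p : P) : P →ₗ[A] A where
  toFun := fisA p
  map_add' q r := by simp [fisA, mul_add, Finset.sum_add_distrib]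
  map_smul' a q := by simp [fisA, Finset.mul_sum, mul_left_comm a]

theorem fis_add_r (p q r : P) : fisA p (q + r) = fisA p q + fisA p r := (fisR p).map_add q r
theorem fis_sub_r (p q r : P) : fisA p (q - r) = fisA p q - fisA p r := (fisR p).map_sub q r
theorem fis_sum_r {ι : Type} (s : Finset ι) (p : P) (q : ι → P) :
    fisA p (∑ i ∈ s, q i) = ∑ i ∈ s, fisA p (q i) := map_sum (fisR p) q s
theorem fis_C_r (a : A) (p q : P) : fisA p (C a * q) = a * fisA p q := by
  rw [← smul_eq_C_mul]; exact (fisR p).map_smul a q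
theorem fis_add_l (p q r : P) : fisA (q + r) p = fisA q p + fisA r p := by
  simp only [fis_comm _ p, fis_add_r]
theorem fis_sub_l (p q r : P) : fisA (q - r) p = fisA q p - fisA r p := by
  simp only [fis_comm _ p, fis_sub_r]
theorem fis_sum_l {ι : Type} (s : Finset ι) (p : P) (q : ι → P) :
    fisA (∑ i ∈ s, q i) p = ∑ i ∈ s, fisA (q i) p := by simp only [fis_comm _ p, fis_sum_r]
theorem fis_C_l (a : A) (p q : P) : fisA (C a * q) p = a * fisA q p := by
  simp only [fis_comm _ p, fis_C_r]

theorem fis_X_l (i : Fin n) (p q : P) : fisA (X i * p) q = fisA p (pderiv i q) := by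
  classical
  unfold fisA
  rw [support_X_mul, Finset.sum_map]
  refine Finset.sum_congr rfl fun b _ => ?_
  rw [addLeftEmbedding_apply, coeff_X_mul, mfac_succ, coeff_pderiv, add_comm b (Finsupp.single i 1),
    mul_smul, add_smul, one_smul, Nat.cast_smul_eq_nsmul, nsmul_eq_mul]
  congr 1; ring

theorem fis_X_r (i : Fin n) (p q : P) : fisA q (X i * p) = fisA (pderiv i q) p := by
  rw [fis_comm, fis_X_l, fis_comm]

theorem fis_rot {w : Fin n → Fin n → A} (h : ∀ a b, w a b = -w b a) (p q : P) :
    fisA (rot w p) q + fisA p (rot w q) = 0 := by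
  simp only [rot, fis_sum_l, fis_sum_r, fis_C_l, fis_C_r, fis_X_l, fis_X_r]
  rw [Finset.sum_comm, ← Finset.sum_add_distrib]
  refine Finset.sum_eq_zero fun a _ => ?_
  rw [← Finset.sum_add_distrib]
  exact Finset.sum_eq_zero fun b _ => by rw [h b a]; ring

theorem fis_cD (D : Derivation ℝ A A) (p q : P) :
    D (fisA p q) = fisA (cD D p) q + fisA p (cD D q) := by
  rw [fis_of_subset (cD D p) q (S := p.support) fun s hs => mem_support_iff.2 fun e =>
    mem_support_iff.1 hs (by rw [coeff_cD, e, map_zero]), fisA, fisA, map_sum, ← Finset.sum_add_distrib]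
  refine Finset.sum_congr rfl fun s _ => ?_
  rw [Derivation.map_smul, Derivation.leibniz, coeff_cD, coeff_cD, ← smul_add, smul_eq_mul,
    smul_eq_mul]
  congr 1; ring

/-! ### derivations -/

theorem dext {D1 D2 : Derivation ℝ P P} (hC : ∀ a, D1 (C a) = D2 (C a))
    (hX : ∀ i, D1 (X i) = D2 (X i)) (p : P) : D1 p = D2 p := by
  induction p using MvPolynomial.induction_on with
  | C a => exact hC a
  | add p q hp hq => rw [map_add, map_add, hp, hq]
  | mul_X p i hp => rw [Derivation.leibniz, Derivation.leibniz, hp, hX]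

theorem dsum {ι : Type} (s : Finset ι) (D : ι → Derivation ℝ P P) (p : P) :
    (∑ i ∈ s, D i) p = ∑ i ∈ s, D i p := by
  rw [← Finset.sum_apply]
  exact congrFun (map_sum Derivation.coeFnAddMonoidHom D s) p

/-- `rot` as a derivation -/
def rotD (w : Fin n → Fin n → A) : Derivation ℝ P P :=
  ∑ a, ∑ b, (C (w a b) * X b : P) • (pderiv a).restrictScalars ℝ

theorem rotD_apply (w : Fin n → Fin n → A) (p : P) : rotD w p = rot w p := by
  simp [rotD, dsum, rot, mul_assoc]

omit [Algebra ℝ A] in
theorem rot_C (w : Fin n → Fin n → A) (a : A) : rot w (C a : P) = 0 := by simp [rot]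

omit [Algebra ℝ A] in
theorem rot_X (w : Fin n → Fin n → A) (c : Fin n) : rot w (X c : P) = ∑ b, C (w c b) * X b := by
  rw [rot, Finset.sum_eq_single c (fun a _ h => by simp [pderiv_X_of_ne h.symm]) (by simp)]
  simp

variable (F : AFr n A)

/-- `nab` as a derivation -/
def nabD (i : Fin n) : Derivation ℝ P P := cD (F.D i) - rotD (F.om i)

theorem nabD_apply (i : Fin n) (p : P) : nabD F i p = F.nab i p := by
  rw [nabD, Derivation.sub_apply, rotD_apply, AFr.nab]

theorem nab_C (i : Fin n) (a : A) : nabD F i (C a) = C (F.D i a) := by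
  rw [nabD_apply, AFr.nab, rot_C, sub_zero]; exact cDl_monomial _ 0 a

theorem nab_X (i c : Fin n) : nabD F i (X c) = -∑ b, C (F.om i c b) * X b := by
  have : cD (F.D i) (X c : P) = 0 := (cDl_monomial _ _ 1).trans (by simp)
  rw [nabD_apply, AFr.nab, rot_X, this, zero_sub]

theorem nab_pd (i k : Fin n) (p : P) : nabD F i (pderiv k p) =
    pderiv k (nabD F i p) + ∑ a, C (F.om i a k) * pderiv a p := by
  classical
  have := dext (D1 := ⁅nabD F i, (pderiv k).restrictScalars ℝ⁆)
    (D2 := ∑ a, (C (F.om i a k) : P) • (pderiv a).restrictScalars ℝ)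
    (fun a => by simp [Derivation.commutator_apply, dsum, nab_C]) (fun c => by
      have : nabD F i (pderiv k (X c : P)) = 0 := by
        rw [pderiv_X, Pi.single_apply]; split_ifs <;> simp
      simp [Derivation.commutator_apply, dsum, nab_X, this, -pderiv_X]
      simp [Pi.single_apply]) p
  simp only [Derivation.commutator_apply, dsum, Derivation.smul_apply,
    Derivation.restrictScalars_apply, smul_eq_mul] at this
  rw [← this]; ring

theorem s23 {M : Type} [AddCommMonoid M] (f : Fin n → Fin n → Fin n → M) :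
    ∑ i, ∑ j, ∑ k, f i j k = ∑ i, ∑ j, ∑ k, f i k j :=
  Finset.sum_congr rfl fun _ _ => Finset.sum_comm

theorem s13 {M : Type} [AddCommMonoid M] (f : Fin n → Fin n → Fin n → M) :
    ∑ i, ∑ j, ∑ k, f i j k = ∑ i, ∑ j, ∑ k, f k j i := by
  rw [s23, Finset.sum_comm, s23]

theorem nab_nab (i j : Fin n) (p : P) : nabD F i (nabD F j p) - nabD F j (nabD F i p) =
    ∑ k, C (F.om i k j - F.om j k i) * nabD F k p - rot (F.Om i j) p := by
  have := dext (D1 := ⁅nabD F i, nabD F j⁆)
    (D2 := ∑ k, (C (F.om i k j - F.om j k i) : P) • nabD F k - rotD (F.Om i j))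
    (fun a => by
      simp only [Derivation.commutator_apply, dsum, nab_C, Derivation.sub_apply, rotD_apply, rot_C,
        Derivation.smul_apply, smul_eq_mul, sub_zero, ← map_sub, ← map_mul, ← map_sum, F.tors])
    (fun c => by
      simp only [Derivation.commutator_apply, dsum, nab_C, nab_X, Derivation.sub_apply, rotD_apply,
        rot_X, Derivation.smul_apply, smul_eq_mul, map_neg, map_sum, Derivation.leibniz, AFr.Om,
        map_sub, map_add, map_mul, mul_neg, Finset.mul_sum, Finset.sum_mul, add_mul, sub_mul,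
        Finset.sum_add_distrib, Finset.sum_sub_distrib, Finset.sum_neg_distrib, mul_assoc]
      rw [Finset.sum_comm (f := fun a b => C (F.om i c b) * (C (F.om j b a) * X a)),
        Finset.sum_comm (f := fun a b => C (F.om j c b) * (C (F.om i b a) * X a)),
        Finset.sum_comm (f := fun a b => C (F.om i b j) * (C (F.om b c a) * X a)),
        Finset.sum_comm (f := fun a b => C (F.om j b i) * (C (F.om b c a) * X a))]
      simp only [mul_comm (X _)]
      ring) p
  simpa only [Derivation.commutator_apply, dsum, Derivation.smul_apply, Derivation.sub_apply,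
    rotD_apply, smul_eq_mul] using this

theorem leib (i : Fin n) (p q : P) :
    F.D i (fisA p q) = fisA (nabD F i p) q + fisA p (nabD F i q) := by
  rw [nabD_apply, nabD_apply, AFr.nab, AFr.nab, fis_sub_l, fis_sub_r, fis_cD]
  linear_combination fis_rot (F.skew i) p q

theorem nab_T (i j k : Fin n) (r : P) : nabD F i (X j * pderiv k r) =
    X j * pderiv k (nabD F i r) + ∑ a, C (F.om i a k) * (X j * pderiv a r) -
      ∑ b, C (F.om i j b) * (X b * pderiv k r) := by
  rw [Derivation.leibniz, nab_pd, nab_X]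
  simp only [smul_eq_mul, mul_add, Finset.mul_sum, mul_left_comm (X j), sub_eq_add_neg,
    mul_comm (pderiv k r), mul_assoc, neg_mul, Finset.sum_mul]

theorem zz (p : P) : ∑ i, ∑ j, (nabD F i (X j * pderiv i (nabD F j p)) -
    nabD F i (X i * pderiv j (nabD F j p)) + C (F.dv i) * (X j * pderiv i (nabD F j p)) -
      C (F.dv i) * (X i * pderiv j (nabD F j p))) = -∑ i, ∑ j, X j * pderiv i (rot (F.Om i j) p) := by
  set T : Fin n → Fin n → Fin n → P := fun a b c => X a * pderiv b (nabD F c p) with hT
  have h1 : ∑ i, ∑ j, X j * pderiv i (nabD F i (nabD F j p)) -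
      ∑ i, ∑ j, X i * pderiv j (nabD F i (nabD F j p)) = ∑ i, ∑ j, ∑ k, C (F.om i k j) * T j i k -
        ∑ i, ∑ j, ∑ k, C (F.om j k i) * T j i k - ∑ i, ∑ j, X j * pderiv i (rot (F.Om i j) p) := by
    rw [Finset.sum_comm (f := fun i j => X i * pderiv j (nabD F i (nabD F j p)))]
    simp only [← Finset.sum_sub_distrib, ← mul_sub, ← sub_mul, ← map_sub, nab_nab]
    refine Finset.sum_congr rfl fun i _ => Finset.sum_congr rfl fun j _ => ?_
    rw [map_sub, map_sum, mul_sub, Finset.mul_sum]
    simp only [pderiv_C_mul, hT, mul_left_comm (X j)]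
  have h2 : ∑ i, ∑ j, ∑ a, C (F.om i a i) * T j a j = -∑ i, ∑ j, ∑ k, C (F.om k k i) * T j i j := by
    rw [s13]
    simp only [← Finset.sum_neg_distrib, ← neg_mul, ← map_neg, ← F.skew]
  have h3 : ∑ i, ∑ j, ∑ a, C (F.om i a j) * T i a j = -∑ i, ∑ j, ∑ k, C (F.om j k i) * T j i k := by
    rw [s23, Finset.sum_comm]
    simp only [← Finset.sum_neg_distrib, ← neg_mul, ← map_neg, ← F.skew]
  have h4 := s23 fun i j b => C (F.om i j b) * T b i j
  have h5 := s13 fun i j b => C (F.om i i b) * T b j j
  simp only [nab_T, AFr.dv, map_sum, Finset.sum_mul, Finset.sum_add_distrib, Finset.sum_sub_distrib]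
  linear_combination h1 + h2 - h3 - h4 + h5

end Wz

open Wz in
theorem weitzS : WeitzS := fun n A _ _ F => by
  classical
  refine ⟨fun i j a b => ?_, fun i j a b => ?_,
    fun i p q => by simpa only [nabD_apply] using leib F i p q, fun p => ?_⟩
  · simp only [AFr.Om, sub_mul, Finset.sum_sub_distrib]; ring
  · have h1 : ∀ i j, ∑ c, F.om i a c * F.om j c b = ∑ c, F.om j b c * F.om i c a := fun i j =>
      Finset.sum_congr rfl fun c _ => by rw [F.skew i a c, F.skew j c b]; ring
    simp only [AFr.Om, Finset.sum_sub_distrib, h1, fun k => F.skew k a b, map_neg, mul_neg,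
      Finset.sum_neg_distrib]
    ring
  have a1 : fisA (F.Dv p) (F.Dv p) = ∑ i, fisA (nabD F i p) (nabD F i p) +
      ∑ i, ∑ j, fisA (X j * pderiv i (nabD F j p)) (nabD F i p) := by
    have e : ∀ i, pderiv i (F.Dv p) = nabD F i p + ∑ j, X j * pderiv i (nabD F j p) := fun i => by
      simp only [AFr.Dv, ← nabD_apply, map_sum, pderiv_mul, Finset.sum_add_distrib]
      rw [Finset.sum_eq_single i (fun j _ h => by rw [pderiv_X_of_ne h, zero_mul]) (by simp),
        pderiv_X_self, one_mul]
    conv_lhs => arg 2; rw [AFr.Dv]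
    simp only [← nabD_apply, fis_sum_r, fis_X_r _ _ (F.Dv p), e, fis_add_l, fis_sum_l,
      Finset.sum_add_distrib]
  have a2 : fisA (F.del p) (F.del p) = ∑ i, ∑ j, fisA (X i * pderiv j (nabD F j p)) (nabD F i p) := by
    simp only [AFr.del, ← nabD_apply, fis_sum_l, fis_sum_r, fis_X_l]
  have a3 : F.curv p = fisA (∑ i, ∑ j, X j * pderiv i (rot (F.Om i j) p)) p := by
    simp only [AFr.curv, fis_sum_l, fis_X_l _ (pderiv _ (rot _ _)), ← fis_X_r]
    simp only [rot, fis_sum_l, fis_C_l]
  have a4 : fisA _ p = fisA _ p := congrArg (fisA · p) (zz F p)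
  rw [← zero_sub, fis_sub_l, ← a3, show fisA 0 p = 0 from Finset.sum_empty] at a4
  simp only [fis_sum_l, fis_sub_l, fis_add_l, fis_C_l, Finset.sum_add_distrib,
    Finset.sum_sub_distrib] at a4
  rw [a1, a2]
  simp only [AFr.W, ← nabD_apply, map_sum, map_sub, leib, Finset.mul_sum, mul_sub,
    Finset.sum_add_distrib, Finset.sum_sub_distrib]
  linear_combination -a4

end Crest.Agent.N221.Car
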