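import Crest.Agent.N221.Car.Pol1
import Crest.Agent.N221.Car.Pol2
import Crest.Agent.N221.Car.Pol3
import Crest.Agent.N221.Car.Weitz
import Crest.Agent.N221.Car.Rep1
import Crest.Agent.N221.Car.Rep2
import Crest.Agent.N221.Car.Rep3
import Crest.Agent.N221.Car.Sum
import Crest.Agent.N221.Car.Core
import Crest.Agent.N221.Car.Main

/-!
Row 221, block `Car` (helper34): all statements without hypotheses.
-/

set_option autoImplicit false

namespace Crest.Agent.N221.Car

theorem p1 : Pol1S := pol1S
theorem p2 : Pol2S := pol2S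
theorem p3 : Pol3S := pol3S p1 p2
theorem r1 : Rep1S := rep1S p1 p2
theorem r2 : Rep2S := rep2S p1 p2 p3 r1
theorem r3 : Rep3S := rep3S p1 p2 p3 r1 r2
theorem core : CoreS := coreS p1 p2 p3 weitzS r1 r2 r3 sumS

/-- FINITE DEGREE -/
theorem car : CarS := carS p1 r1 r3 core

end Crest.Agent.N221.Car
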