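import Crest.Agent.N221.Car.Core0
import Crest.Agent.N221.C.Polar

/-!
Row 221, block `Car` (helper34): the bridge from the cover `Cov G` to the frame model `Car.Fr`.

`Φ : Frm C` is a global orthonormal frame of the cover: `Φ.O x : ℝⁿ → T_{pr x} S ⊆ ℝ^N` is a
linear isometry, `Φ.E x = (d pr x)⁻¹ ∘ Φ.O x`.  A function `F x w` on the unit tangent bundle of
the cover (`C.Un x w`) is read as `Φ.up F x v = F x (Φ.O x v)` on `ℝⁿ × Sph n`.
-/

set_option autoImplicit false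

open MeasureTheory Set Function
open scoped ContDiff RealInnerProductSpace
open Crest.GeometryTopology.Submanifold
open Crest.Agent.R241.DDefs Crest.Agent.R241.D2
open Crest.Agent.R208.J Crest.Agent.R208.L
open Crest.Agent.R086 Crest.Agent.R086.SH

noncomputable section

namespace Crest.Agent.N221

/-- a global orthonormal frame of the cover -/
structure Frm {n N : ℕ} {κ : ℝ} {S : Set (Euc N)} {G : Geo n N κ S} (C : Cov G) where
  O : Euc n → Euc n →L[ℝ] Euc N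
  E : Euc n → Euc n →L[ℝ] Euc n
  O_sm : ContDiff ℝ ∞ O
  E_sm : ContDiff ℝ ∞ E
  inner_O : ∀ x v w, ⟪O x v, O x w⟫ = ⟪v, w⟫
  pr_E : ∀ x v, fderiv ℝ C.pr x (E x v) = O x v

namespace Frm

variable {n N : ℕ} {a : ℝ} {S : Set (Euc N)} {G : Geo n N (-(a ^ 2)) S} {C : Cov G} (Φ : Frm C)

/-- basis vector -/
abbrev ε (i : Fin n) : Euc n := EuclideanSpace.single i (1 : ℝ)

lemma O_mem (x v : Euc n) : Φ.O x v ∈ G.T (C.pr x) := by
  rw [← Φ.pr_E]; exact C.fderiv_pr_mem _ _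

lemma norm_O (x v : Euc n) : ‖Φ.O x v‖ = ‖v‖ := by
  rw [norm_eq_sqrt_real_inner, Φ.inner_O, ← norm_eq_sqrt_real_inner]

lemma un {x v : Euc n} (hv : ‖v‖ = 1) : C.Un x (Φ.O x v) :=
  ⟨⟨C.pr_mem x, Φ.O_mem x v⟩, (Φ.norm_O x v).trans hv⟩

lemma O_inj (x : Euc n) : Injective (Φ.O x) := by
  intro u w h
  have h1 := Φ.norm_O x (u - w)
  rw [map_sub, h, sub_self, norm_zero] at h1
  exact sub_eq_zero.1 (norm_eq_zero.1 h1.symm)

lemma O_surj (x : Euc n) {w : Euc N} (hw : w ∈ G.T (C.pr x)) : ∃ v, Φ.O x v = w := by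
  have h1 : LinearMap.range (Φ.O x).toLinearMap = G.T (C.pr x) := by
    apply Submodule.eq_of_le_of_finrank_eq
    · rintro _ ⟨v, rfl⟩; exact Φ.O_mem x v
    · rw [LinearMap.finrank_range_of_inj (Φ.O_inj x), G.finrank_T _ (C.pr_mem x)]; simp
  rw [← h1] at hw
  exact hw

lemma sum_ε (v : Euc n) : ∑ k, v k • (ε k : Euc n) = v := by
  ext j; simp [Finset.sum_apply, Pi.single_apply]

/-- expansion of a tangent vector in the frame -/
lemma expand (x : Euc n) {w : Euc N} (hw : w ∈ G.T (C.pr x)) :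
    w = ∑ k, ⟪w, Φ.O x (ε k)⟫ • Φ.O x (ε k) := by
  obtain ⟨v, rfl⟩ := Φ.O_surj x hw
  conv_lhs => rw [← sum_ε v, map_sum]
  refine Finset.sum_congr rfl fun k _ => ?_
  rw [map_smul, Φ.inner_O]
  simp [EuclideanSpace.inner_single_right]

lemma col_sm (b : Euc n) : ContDiff ℝ ∞ fun y => Φ.O y b := Φ.O_sm.clm_apply contDiff_const

lemma e_sm (b : Euc n) : ContDiff ℝ ∞ fun y => Φ.E y b := Φ.E_sm.clm_apply contDiff_const

/-- derivative of the column `b` in the direction `z` -/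
def dO (x z b : Euc n) : Euc N := fderiv ℝ (fun y => Φ.O y b) x z

lemma hasFDerivAt_col (x b : Euc n) :
    HasFDerivAt (fun y => Φ.O y b) (fderiv ℝ (fun y => Φ.O y b) x) x :=
  ((Φ.col_sm b).differentiable (by simp) x).hasFDerivAt

lemma inner_dO (x z c b : Euc n) : ⟪Φ.dO x z c, Φ.O x b⟫ = -⟪Φ.dO x z b, Φ.O x c⟫ := by
  have h := (Φ.hasFDerivAt_col x c).inner ℝ (Φ.hasFDerivAt_col x b)
  have e : (fun y => ⟪Φ.O y c, Φ.O y b⟫) = fun _ => ⟪c, b⟫ := funext fun y => Φ.inner_O y c b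
  rw [e] at h
  have h2 := congrArg (fun L => L z) (h.unique (hasFDerivAt_const _ _))
  simp only [ContinuousLinearMap.comp_apply, ContinuousLinearMap.prod_apply,
    fderivInnerCLM_apply, FunLike.coe_zero, Pi.zero_apply] at h2
  unfold dO
  rw [real_inner_comm (Φ.O x c)]
  linarith

lemma dO_eq (x z b : Euc n) : Φ.dO x z b =
    fderiv ℝ (fderiv ℝ C.pr) x z (Φ.E x b) + fderiv ℝ C.pr x (fderiv ℝ (fun y => Φ.E y b) x z) := by
  have e : (fun y => Φ.O y b) = fun y => fderiv ℝ C.pr y (Φ.E y b) :=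
    funext fun y => (Φ.pr_E y b).symm
  have h1 : DifferentiableAt ℝ (fderiv ℝ C.pr) x :=
    (C.pr_smooth.fderiv_right (m := ∞) (by simp)).differentiable (by simp) x
  have h2 : DifferentiableAt ℝ (fun y => Φ.E y b) x := (Φ.e_sm b).differentiable (by simp) x
  unfold dO
  rw [e, fderiv_clm_apply h1 h2]
  simp [add_comm]

/-- the frame model of the cover -/
def fr : Car.Fr n where
  e i x := Φ.E x (ε i)
  e_sm i := Φ.e_sm _
  om i p q := ⟨fun x => ⟪Φ.dO x (Φ.E x (ε i)) (ε q), Φ.O x (ε p)⟫,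
    ContDiff.inner ℝ ((((Φ.col_sm (ε q)).fderiv_right (m := ∞) (by simp))).clm_apply (Φ.e_sm _))
      (Φ.col_sm _)⟩
  skew i p q := Subtype.ext (funext fun x => Φ.inner_dO x _ _ _)
  tors i j x := by
    apply C.fderiv_pr_inj x
    have hs : IsSymmSndFDerivAt ℝ C.pr x := C.pr_smooth.contDiffAt.isSymmSndFDerivAt (by
      rw [minSmoothness_of_isRCLikeNormedField]; exact WithTop.coe_le_coe.2 le_top)
    have h1 := Φ.dO_eq x (Φ.E x (ε i)) (ε j)
    have h2 := Φ.dO_eq x (Φ.E x (ε j)) (ε i)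
    rw [hs.eq (Φ.E x (ε j))] at h2
    have h3 : fderiv ℝ C.pr x (fderiv ℝ (fun y => Φ.E y (ε j)) x (Φ.E x (ε i)) -
        fderiv ℝ (fun y => Φ.E y (ε i)) x (Φ.E x (ε j))) =
        Φ.dO x (Φ.E x (ε i)) (ε j) - Φ.dO x (Φ.E x (ε j)) (ε i) := by
      rw [map_sub, h1, h2]; abel
    have h4 := Φ.expand x (C.fderiv_pr_mem x (fderiv ℝ (fun y => Φ.E y (ε j)) x (Φ.E x (ε i)) -
        fderiv ℝ (fun y => Φ.E y (ε i)) x (Φ.E x (ε j))))
    rw [h4, map_sum]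
    refine Finset.sum_congr rfl fun k _ => ?_
    rw [map_smul, Φ.pr_E, h3, inner_sub_left]

lemma fr_e (i : Fin n) (x : Euc n) : Φ.fr.e i x = Φ.E x (ε i) := rfl

lemma fr_om (i p q : Fin n) (x : Euc n) :
    (Φ.fr.om i p q).1 x = ⟪Φ.dO x (Φ.E x (ε i)) (ε q), Φ.O x (ε p)⟫ := rfl

/-- a function on the tangent bundle of the cover read in the frame -/
def up (F : Euc n → Euc N → ℝ) (x v : Euc n) : ℝ := F x (Φ.O x v)

end Frm

/-! ### statements -/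

/-- existence of a frame -/
def FrmExS : Prop := ∀ (n N : ℕ) (a : ℝ) (S : Set (Euc N)) (G : Geo n N (-(a ^ 2)) S)
  (C : Cov G), Nonempty (Frm C)

/-- the divergence of the frame fields (no geometry) -/
def IbpS : Prop := ∀ (n : ℕ) (F : Car.Fr n) (E : Euc n → Euc n →L[ℝ] Euc n), ContDiff ℝ ∞ E →
  (∀ x i, E x (EuclideanSpace.single i 1) = F.e i x) → (∀ x, (E x).det ≠ 0) →
  ∀ (i : Fin n) (φ : Car.Sm n), HasCompactSupport φ.1 →
    ∫ x, (F.alg.D i φ + F.alg.dv i * φ).1 x * |(E x).det|⁻¹ = 0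

/-- Gauss formula, Gauss equation, horizontal and vertical derivatives, geodesic field -/
def FrmS : Prop := ∀ (n N : ℕ) (a : ℝ) (S : Set (Euc N)) (G : Geo n N (-(a ^ 2)) S) (C : Cov G)
  (Φ : Frm C),
  (∀ x i v, Φ.dO x (Φ.E x (Frm.ε i)) v =
    Φ.O x (Φ.fr.omv i x v) + II G (C.pr x) (Φ.O x (Frm.ε i)) (Φ.O x v)) ∧
  (∀ x i j p q, (Φ.fr.alg.Om i j p q).1 x =
    R4 G (C.pr x) (Φ.O x (Frm.ε i)) (Φ.O x (Frm.ε j)) (Φ.O x (Frm.ε q)) (Φ.O x (Frm.ε p))) ∧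
  (∀ (F : Euc n → Euc N → ℝ) x v, DifferentiableAt ℝ (uncurry F) (x, Φ.O x v) →
    (∀ i, Φ.fr.nabU i (Φ.up F) x v = fderiv ℝ (uncurry F) (x, Φ.O x v)
      (Φ.E x (Frm.ε i), II G (C.pr x) (Φ.O x (Frm.ε i)) (Φ.O x v))) ∧
    (∀ z, fderiv ℝ (uncurry (Φ.up F)) (x, v) (0, z) =
      fderiv ℝ (uncurry F) (x, Φ.O x v) (0, Φ.O x z)) ∧
    HasDerivAt (fun t => F (C.gd x (Φ.O x v) t) (C.vel x (Φ.O x v) t))
      (Φ.fr.XU (Φ.up F) x v) 0)

/-- the frame model has negative curvature and the right divergence -/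
def GoodS : Prop := ∀ (n N : ℕ) (a : ℝ) (S : Set (Euc N)) (G : Geo n N (-(a ^ 2)) S) (C : Cov G)
  (Φ : Frm C), Hyp n N a S → Φ.fr.Good C.vol (a ^ 2)

/-- FINITE DEGREE on the cover: `V` finite dimensional, `L y` smooth solutions of `X F = k F`,
the family is stable under deck maps. -/
def FinS : Prop := ∀ (n N : ℕ) (a : ℝ) (S : Set (Euc N)) (G : Geo n N (-(a ^ 2)) S) (C : Cov G)
  (Φ : Frm C), Hyp n N a S →
  ∀ (V : Type) [AddCommGroup V] [Module ℝ V] [FiniteDimensional ℝ V]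
    (L : V →ₗ[ℝ] (Euc n → Euc N → ℝ)) (k : ℝ),
  (∀ y x w, C.Un x w → ContDiffAt ℝ ∞ (uncurry (L y)) (x, w)) →
  (∀ y x w, C.Un x w → HasDerivAt (fun t => L y (C.gd x w t) (C.vel x w t)) (k * L y x w) 0) →
  (∀ g, C.Deck g → ∀ y, ∃ y', ∀ x w, C.Un x w → L y (g x) w = L y' x w) →
  ∃ (D : ℕ) (P : V →ₗ[ℝ] (ℕ → Car.PP n)), (∀ y l x, Sph.Harm l (Car.ax x (P y l))) ∧
    (∀ y l, D ≤ l → P y l = 0) ∧
    ∀ y x v, ‖v‖ = 1 → L y x (Φ.O x v) = ∑ l ∈ Finset.range D, pfun (Car.ax x (P y l)) v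

end Crest.Agent.N221
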