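import Crest.Agent.N221.Car.Defs

/-!
Row 221, block `Car` (helper34): elementary lemmas for `Core` (evaluation `ax`, quadratic
inequalities for `fis`, compact supports).
-/

set_option autoImplicit false

open MvPolynomial MeasureTheory Function
open scoped ContDiff RealInnerProductSpace
open Crest.Agent.R086 Crest.Agent.R086.SH

noncomputable section

namespace Crest.Agent.N221.Car.Co

variable {n : ℕ}

/-! ### evaluation -/

lemma ax_add (x : EE n) (P Q : PP n) : ax x (P + Q) = ax x P + ax x Q := map_add _ _ _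
lemma ax_sub (x : EE n) (P Q : PP n) : ax x (P - Q) = ax x P - ax x Q := map_sub _ _ _
lemma ax_mul (x : EE n) (P Q : PP n) : ax x (P * Q) = ax x P * ax x Q := map_mul _ _ _
lemma ax_sum {ι : Type} (s : Finset ι) (x : EE n) (P : ι → PP n) :
    ax x (∑ a ∈ s, P a) = ∑ a ∈ s, ax x (P a) := map_sum _ _ _
lemma ax_X (x : EE n) (i : Fin n) : ax x (X i) = X i := map_X _ _
lemma ax_C (x : EE n) (φ : Sm n) : ax x (C φ) = C (φ.1 x) := map_C _ _
lemma ax_pderiv (x : EE n) (i : Fin n) (P : PP n) : ax x (pderiv i P) = pderiv i (ax x P) :=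
  (pderiv_map).symm
lemma coeff_ax (x : EE n) (P : PP n) (s : Fin n →₀ ℕ) : coeff s (ax x P) = (coeff s P).1 x :=
  coeff_map _ _ _
lemma ax_smul (x : EE n) (c : ℝ) (P : PP n) : ax x (c • P) = c • ax x P := by
  ext s
  rw [coeff_ax, coeff_smul, coeff_smul, coeff_ax]; rfl
lemma ax_C_mul (x : EE n) (φ : Sm n) (P : PP n) : ax x (C φ * P) = φ.1 x • ax x P := by
  rw [ax_mul, ax_C, smul_eq_C_mul]

lemma ax_rot (x : EE n) (w : Fin n → Fin n → Sm n) (P : PP n) :
    ax x (rot w P) = rot (fun a b => (w a b).1 x) (ax x P) := by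
  unfold rot
  simp only [ax_sum, ax_mul, ax_C, ax_X, ax_pderiv]

lemma sm_add (φ ψ : Sm n) (x : EE n) : (φ + ψ).1 x = φ.1 x + ψ.1 x := rfl
lemma sm_sub (φ ψ : Sm n) (x : EE n) : (φ - ψ).1 x = φ.1 x - ψ.1 x := rfl
lemma sm_mul (φ ψ : Sm n) (x : EE n) : (φ * ψ).1 x = φ.1 x * ψ.1 x := rfl
lemma sm_neg (φ : Sm n) (x : EE n) : (-φ).1 x = -φ.1 x := rfl
lemma sm_sum {ι : Type} (s : Finset ι) (φ : ι → Sm n) (x : EE n) :
    (∑ a ∈ s, φ a : Sm n).1 x = ∑ a ∈ s, (φ a).1 x := by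
  rw [← evx_apply, map_sum]; rfl

/-! ### supports -/

/-- `P` vanishes off `K` -/
def Sup (K : Set (EE n)) (P : PP n) : Prop := ∀ x, x ∉ K → ax x P = 0

lemma Sup.nab {K : Set (EE n)} (hK : IsClosed K) {P : PP n} (h : Sup K P) (F : Fr n) (i : Fin n) :
    Sup K (F.alg.nab i P) := by
  intro x hx
  unfold AFr.nab
  rw [ax_sub, ax_rot, h x hx]
  have h1 : ax x (cD (F.alg.D i) P) = 0 := by
    ext s
    rw [coeff_ax, coeff_cD, coeff_zero]
    have h2 : (coeff s P).1 =ᶠ[nhds x] fun _ => (0 : ℝ) := by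
      filter_upwards [hK.isOpen_compl.mem_nhds hx] with y hy
      rw [← coeff_ax, h y hy, coeff_zero]
    show fderiv ℝ (coeff s P).1 x (F.e i x) = 0
    rw [h2.fderiv_eq]; simp
  rw [h1]
  simp [rot]

lemma hcs_of {K : Set (EE n)} (hK : IsCompact K) {g : EE n → ℝ} (h : ∀ x, x ∉ K → g x = 0) :
    HasCompactSupport g := HasCompactSupport.intro hK h

/-! ### the Fischer form -/

section fis

variable (hs : ∀ p q : P0 n, fis p q = fis q p) (h0 : ∀ p : P0 n, 0 ≤ fis p p)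
  (hm : ∀ (c : ℝ) (p q : P0 n), fis (c • p) q = c * fis p q)
include hs hm

/-- `fis` as a bilinear map -/
def fB : P0 n →ₗ[ℝ] P0 n →ₗ[ℝ] ℝ :=
  LinearMap.mk₂ ℝ fis fis_add_left (fun c p q => by rw [hm]; rfl)
    (fun p q q' => by rw [hs, fis_add_left, hs q, hs q'])
    (fun c p q => by rw [hs, hm, hs q]; rfl)

lemma fB_apply (p q : P0 n) : fB hs hm p q = fis p q := rfl

lemma fis_smul_smul (c : ℝ) (p : P0 n) : fis (c • p) (c • p) = c ^ 2 * fis p p := by
  rw [← fB_apply hs hm]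
  simp only [map_smul, LinearMap.smul_apply, smul_eq_mul, fB_apply]
  ring

lemma fis_lin2 (a b : ℝ) (p q : P0 n) : fis (a • p + b • q) (a • p + b • q) =
    a ^ 2 * fis p p + 2 * a * b * fis p q + b ^ 2 * fis q q := by
  rw [← fB_apply hs hm]
  simp only [map_add, map_smul, LinearMap.add_apply, LinearMap.smul_apply, smul_eq_mul, fB_apply]
  rw [hs q p]; ring

include h0

lemma fis_sub_le {θ : ℝ} (hθ : 0 < θ) (r b : P0 n) :
    fis (r - b) (r - b) ≤ (1 + θ⁻¹) * fis r r + (1 + θ) * fis b b := by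
  have e1 := fis_lin2 hs hm 1 (-1) r b
  have e2 := fis_lin2 hs hm 1 θ r b
  have e3 := h0 ((1 : ℝ) • r + θ • b)
  rw [e2] at e3
  have e4 : (1 : ℝ) • r + (-1 : ℝ) • b = r - b := by simp [sub_eq_add_neg]
  rw [e4] at e1
  rw [e1]
  have e5 : 0 ≤ θ⁻¹ * (1 ^ 2 * fis r r + 2 * 1 * θ * fis r b + θ ^ 2 * fis b b) :=
    mul_nonneg (inv_nonneg.2 hθ.le) e3
  have e6 : θ⁻¹ * (1 ^ 2 * fis r r + 2 * 1 * θ * fis r b + θ ^ 2 * fis b b) =
      θ⁻¹ * fis r r + 2 * fis r b + θ * fis b b := by field_simp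
  nlinarith

lemma fis_sum_le {ι : Type} (s : Finset ι) (c : ι → ℝ) (w : ι → P0 n) :
    fis (∑ i ∈ s, c i • w i) (∑ i ∈ s, c i • w i) ≤
      (∑ i ∈ s, c i ^ 2) * ∑ i ∈ s, fis (w i) (w i) := by
  have e1 : fis (∑ i ∈ s, c i • w i) (∑ i ∈ s, c i • w i) =
      ∑ i ∈ s, ∑ j ∈ s, c i * c j * fis (w i) (w j) := by
    rw [← fB_apply hs hm]
    simp only [map_sum, map_smul, LinearMap.sum_apply, LinearMap.smul_apply, smul_eq_mul, fB_apply]
    refine Finset.sum_congr rfl fun i _ => ?_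
    rw [Finset.mul_sum]
    refine Finset.sum_congr rfl fun j _ => ?_
    rw [hs (w j) (w i)]; ring
  have e2 : ∀ i j, c i * c j * fis (w i) (w j) ≤
      (c j ^ 2 * fis (w i) (w i) + c i ^ 2 * fis (w j) (w j)) / 2 := by
    intro i j
    have := h0 (c j • w i + (-c i) • w j)
    rw [fis_lin2 hs hm] at this
    nlinarith
  have e3 : ∑ i ∈ s, ∑ j ∈ s, (c j ^ 2 * fis (w i) (w i) + c i ^ 2 * fis (w j) (w j)) / 2 =
      (∑ i ∈ s, c i ^ 2) * ∑ i ∈ s, fis (w i) (w i) := by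
    simp only [add_div, Finset.sum_add_distrib]
    rw [Finset.sum_comm (f := fun i j => c j ^ 2 * fis (w i) (w i) / 2), ← Finset.sum_add_distrib,
      Finset.sum_mul_sum]
    refine Finset.sum_congr rfl fun i _ => ?_
    rw [← Finset.sum_add_distrib]
    refine Finset.sum_congr rfl fun j _ => ?_
    ring
  rw [e1, ← e3]
  exact Finset.sum_le_sum fun i _ => Finset.sum_le_sum fun j _ => e2 i j

lemma fis_add3_le (p q r : P0 n) :
    fis (p + q + r) (p + q + r) ≤ 3 * (fis p p + fis q q + fis r r) := by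
  have h := fis_sum_le hs h0 hm (Finset.univ : Finset (Fin 3)) (fun _ => 1) ![p, q, r]
  simpa [Fin.sum_univ_three] using h

lemma fis_sum_one_le (w : Fin n → P0 n) :
    fis (∑ i, w i) (∑ i, w i) ≤ n * ∑ i, fis (w i) (w i) := by
  have h := fis_sum_le hs h0 hm (Finset.univ : Finset (Fin n)) (fun _ => 1) w
  simpa using h

end fis

/-! ### smooth functions of `(x, v)` -/

lemma smU_mul (φ : Sm n) {u : EE n → EE n → ℝ} (hu : SmU u) :
    SmU fun x v => φ.1 x * u x v :=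
  ContDiff.mul ((Sm.sm φ).comp contDiff_fst) hu

lemma smU_coord (i : Fin n) {u : EE n → EE n → ℝ} (hu : SmU u) :
    SmU fun x v => v i * u x v := by
  have h : ContDiff ℝ ∞ fun z : EE n × EE n => z.2 i :=
    (EuclideanSpace.proj (𝕜 := ℝ) i : EE n →L[ℝ] ℝ).contDiff.comp contDiff_snd
  exact ContDiff.mul h hu

lemma smU_sum {ι : Type} (s : Finset ι) {u : ι → EE n → EE n → ℝ} (hu : ∀ a ∈ s, SmU (u a)) :
    SmU fun x v => ∑ a ∈ s, u a x v :=
  ContDiff.sum (f := fun a => uncurry (u a)) hu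

lemma nabU_mul (F : Fr n) (i : Fin n) (φ : Sm n) {u : EE n → EE n → ℝ} (hu : SmU u)
    (x v : EE n) : F.nabU i (fun x v => φ.1 x * u x v) x v =
      (F.alg.D i φ).1 x * u x v + φ.1 x * F.nabU i u x v := by
  have h1 : HasFDerivAt (fun z : EE n × EE n => φ.1 z.1)
      ((fderiv ℝ φ.1 x).comp (ContinuousLinearMap.fst ℝ (EE n) (EE n))) (x, v) :=
    (((Sm.sm φ).differentiable (by simp) x).hasFDerivAt).comp (x, v) hasFDerivAt_fst
  have h2 := (ContDiff.differentiable hu (by simp) (x, v)).hasFDerivAt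
  have h3 := (h1.mul h2).fderiv
  unfold Fr.nabU
  have e : (uncurry fun x v => φ.1 x * u x v) =
      (fun z : EE n × EE n => φ.1 z.1) * uncurry u := rfl
  rw [e, h3]
  show φ.1 x * fderiv ℝ (uncurry u) (x, v) (F.e i x, -F.omv i x v) +
    u x v * fderiv ℝ φ.1 x (F.e i x) = fderiv ℝ φ.1 x (F.e i x) * u x v + _
  ring

/-- bound of a smooth function on `K × sphere` -/
lemma exists_sI_le {K : Set (EE n)} (hK : IsCompact K) {V : EE n → EE n → ℝ} (hV : SmU V) :
    ∃ M : ℝ, 0 ≤ M ∧ ∀ x ∈ K, sI (fun w => V x w ^ 2) ≤ M := by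
  have hc : Continuous fun z : EE n × EE n => uncurry V z ^ 2 := hV.continuous.pow 2
  obtain ⟨M, hM⟩ := (hK.prod (isCompact_sphere (0 : EE n) 1)).exists_bound_of_continuousOn
    hc.continuousOn
  refine ⟨max M 0 * (sg n).real Set.univ, by positivity, fun x hx => ?_⟩
  have h1 : ‖sI fun w => V x w ^ 2‖ ≤ max M 0 * (sg n).real Set.univ :=
    norm_integral_le_of_norm_le_const (Filter.Eventually.of_forall fun w =>
      (hM (x, (w : EE n)) ⟨hx, w.2⟩).trans (le_max_left _ _))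
  exact (le_abs_self _).trans h1

lemma integral_le_of_supp {μ : Measure (EE n)} [IsFiniteMeasureOnCompacts μ] {K : Set (EE n)}
    (hK : IsCompact K) {g : EE n → ℝ} (h0 : ∀ x, x ∉ K → g x = 0) {M : ℝ}
    (hM : ∀ x ∈ K, |g x| ≤ M) : ∫ x, g x ∂μ ≤ M * μ.real K := by
  rw [← setIntegral_eq_integral_of_forall_compl_eq_zero h0]
  have h : ‖∫ x in K, g x ∂μ‖ ≤ M * μ.real K :=
    norm_setIntegral_le_of_norm_le_const hK.measure_lt_top fun x hx => hM x hx
  exact (le_abs_self _).trans h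

end Crest.Agent.N221.Car.Co
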