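import Crest.Agent.N221.Car.Defs

/-!
Row 221, block `Car`: Fischer product = Gaussian product = sphere product (`Pol1S`).
-/

set_option autoImplicit false

open MvPolynomial MeasureTheory Function
open scoped ContDiff RealInnerProductSpace
open Crest.Agent.R086 Crest.Agent.R086.SH

noncomputable section

namespace Crest.Agent.N221.Car

namespace Pol1

variable {n : ℕ}

lemma fis_comm (p q : P0 n) : fis p q = fis q p := by
  classical
  rw [fis_eq_of_subset p q (S := p.support ∪ q.support) Finset.subset_union_left,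
    fis_eq_of_subset q p (S := p.support ∪ q.support) Finset.subset_union_right]
  exact Finset.sum_congr rfl fun a _ => by ring

lemma fis_nonneg (p : P0 n) : 0 ≤ fis p p :=
  Finset.sum_nonneg fun a _ => by
    rw [mul_assoc]; exact mul_nonneg (mfac_pos a).le (mul_self_nonneg _)

lemma fis_cs (p q : P0 n) : fis p q ^ 2 ≤ fis p p * fis q q := by
  classical
  rw [fis_eq_of_subset p q (S := p.support ∪ q.support) Finset.subset_union_left,
    fis_eq_of_subset p p (S := p.support ∪ q.support) Finset.subset_union_left,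
    fis_eq_of_subset q q (S := p.support ∪ q.support) Finset.subset_union_right]
  refine Finset.sum_sq_le_sum_mul_sum_of_sq_le_mul _ (fun a _ => ?_) (fun a _ => ?_)
    (fun a _ => le_of_eq (by ring))
  · rw [mul_assoc]; exact mul_nonneg (mfac_pos a).le (mul_self_nonneg _)
  · rw [mul_assoc]; exact mul_nonneg (mfac_pos a).le (mul_self_nonneg _)

lemma fis_smul_right (c : ℝ) (p q : P0 n) : fis p (c • q) = c * fis p q := by
  unfold fis
  rw [Finset.mul_sum]
  refine Finset.sum_congr rfl fun a _ => ?_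
  rw [coeff_smul, smul_eq_mul]; ring

lemma fis_smul_left (c : ℝ) (p q : P0 n) : fis (c • p) q = c * fis p q := by
  rw [fis_comm, fis_smul_right, fis_comm]

lemma gE_one_pos : 0 < gE (1 : P0 n) := by
  unfold gE
  have h : (fun x : EE n => pfun (1 : P0 n) x * gw x) = gw := by
    funext x; simp [pfun]
  have hi := integrable_pfun_gw (1 : P0 n)
  rw [h] at hi ⊢
  rw [integral_pos_iff_support_of_nonneg (fun x => (gw_pos x).le) hi]
  have : support (gw : EE n → ℝ) = Set.univ := by
    ext x; simp [(gw_pos x).ne']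
  rw [this]
  exact isOpen_univ.measure_pos _ Set.univ_nonempty

lemma fis_deg {l l' : ℕ} {p q : P0 n} (hp : p.IsHomogeneous l) (hq : q.IsHomogeneous l')
    (h : l ≠ l') : fis p q = 0 := by
  unfold fis
  refine Finset.sum_eq_zero fun a ha => ?_
  have h1 : a.degree = l := by
    by_contra hne
    exact (mem_support_iff.1 ha) (hp.coeff_eq_zero hne)
  rw [hq.coeff_eq_zero (by rw [h1]; exact h), mul_zero]

lemma harm_pderiv {l : ℕ} {p : P0 n} (hp : Sph.Harm l p) (i : Fin n) :
    Sph.Harm (l - 1) (pderiv i p) := by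
  have h0 : plap p = 0 := hp.harm
  refine ⟨hp.hom.pderiv, ?_⟩
  show plap (pderiv i p) = 0
  rw [plap_pderiv, h0, map_zero]

lemma eq_C_of_hom0 {q : P0 n} (hq : q.IsHomogeneous 0) : q = C (coeff 0 q) := by
  rwa [← totalDegree_zero_iff_isHomogeneous, totalDegree_eq_zero_iff_eq_C] at hq

lemma gE_mul_zero {l : ℕ} {p q : P0 n} (hp : Sph.Harm l p) (hq : q.IsHomogeneous 0) :
    gE (p * q) = gE (1 : P0 n) * fis p q := by
  rcases Nat.eq_zero_or_pos l with rfl | hl
  · have hp0 := eq_C_of_hom0 hp.hom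
    have hq0 := eq_C_of_hom0 hq
    have e1 : p * q = (coeff 0 p * coeff 0 q) • (1 : P0 n) := by
      conv_lhs => rw [hp0, hq0]
      rw [← C_mul, smul_eq_C_mul, mul_one]
    have e2 : fis p q = coeff 0 p * coeff 0 q := by
      rw [fis_eq_of_subset p q (S := {0})]
      · simp [mfac]
      · intro a ha
        rw [Finset.mem_singleton]
        by_contra hne
        apply mem_support_iff.1 ha
        rw [hp0, coeff_C, if_neg (Ne.symm hne)]
    rw [e1, e2, gE_smul, mul_comm]
  · have hq0 := eq_C_of_hom0 hq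
    have e1 : p * q = coeff 0 q • p := by
      conv_lhs => rw [hq0]
      rw [smul_eq_C_mul, mul_comm]
    rw [e1, gE_smul, gE_harm_pos hl hp, fis_deg hp.hom hq hl.ne', mul_zero, mul_zero]

lemma euler {k : ℕ} {q : P0 n} (hq : q.IsHomogeneous k) :
    ∑ i, X i * pderiv i q = (k : ℝ) • q := by
  rw [hq.sum_X_mul_pderiv, Nat.cast_smul_eq_nsmul]

lemma gE_mul (l' : ℕ) : ∀ (l : ℕ) (p q : P0 n), Sph.Harm l p → Sph.Harm l' q →
    gE (p * q) = gE (1 : P0 n) * fis p q := by
  induction l' with
  | zero => intro l p q hp hq; exact gE_mul_zero hp hq.hom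
  | succ k ih =>
    intro l p q hp hq
    have hk : ((k + 1 : ℕ) : ℝ) ≠ 0 := by positivity
    have h0 : ∑ i, pderiv i (pderiv i q) = 0 := hq.harm
    have e1 : ((k + 1 : ℕ) : ℝ) * gE (p * q) = ∑ i, gE (pderiv i p * pderiv i q) := by
      rw [← gE_smul, ← mul_smul_comm, ← euler hq.hom, Finset.mul_sum, gE_sum]
      have : ∀ i : Fin n, gE (p * (X i * pderiv i q)) =
          gE (pderiv i p * pderiv i q) + gE (p * pderiv i (pderiv i q)) := by
        intro i
        rw [mul_left_comm, gE_X_mul, pderiv_mul, gE_add]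
      simp only [this]
      rw [Finset.sum_add_distrib, ← gE_sum Finset.univ fun i => p * pderiv i (pderiv i q),
        ← Finset.mul_sum, h0, mul_zero, gE_zero, add_zero]
    have e2 : ((k + 1 : ℕ) : ℝ) * fis p q = ∑ i, fis (pderiv i p) (pderiv i q) := by
      rw [← fis_smul_right, ← euler hq.hom, fis_sum_right]
      refine Finset.sum_congr rfl fun i _ => ?_
      rw [fis_comm, fis_X_mul, fis_comm]
    apply mul_left_cancel₀ hk
    rw [e1, mul_left_comm, e2, Finset.mul_sum]
    exact Finset.sum_congr rfl fun i _ =>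
      ih (l - 1) _ _ (harm_pderiv hp i) (harm_pderiv hq i)

lemma gE_rho_mul {k : ℕ} {g : P0 n} (hg : g.IsHomogeneous k) :
    gE (rho * g) = ((n : ℝ) + k) * gE g := by
  unfold rho
  rw [Finset.sum_mul, gE_sum]
  have : ∀ i : Fin n, gE (X i ^ 2 * g) = gE g + gE (X i * pderiv i g) := by
    intro i
    rw [pow_two, mul_assoc, gE_X_mul, pderiv_mul, pderiv_X_self, one_mul, gE_add]
  simp only [this]
  rw [Finset.sum_add_distrib, ← gE_sum Finset.univ fun i => X i * pderiv i g, euler hg, gE_smul]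
  simp
  ring

lemma kap_pos [NeZero n] (m : ℕ) : 0 < kap n m := by
  refine lt_of_le_of_ne ?_ (kap_ne_zero m).symm
  unfold kap
  refine integral_nonneg fun s => ?_
  have : (0 : ℝ) < s := s.2
  positivity

lemma rho_pow_hom (l : ℕ) : ((rho : P0 n) ^ l).IsHomogeneous (2 * l) := rho_hom.pow l

lemma gE_rho_pow [NeZero n] (l : ℕ) :
    gE ((rho : P0 n) ^ l) = kap n (2 * l) * ∫ _ : Sph n, (1 : ℝ) ∂(sg n) := by
  rw [gE_hom (rho_pow_hom l)]
  congr 1
  refine integral_congr_ae (Filter.Eventually.of_forall fun w => ?_)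
  have h := pfun_rho_sph w
  simp only [pfun] at h ⊢
  rw [map_pow, h, one_pow]

lemma kap_succ [NeZero n] (l : ℕ) :
    kap n (2 * (l + 1)) = ((n : ℝ) + 2 * l) * kap n (2 * l) := by
  have h1 : (∫ _ : Sph n, (1 : ℝ) ∂(sg n)) ≠ 0 := by
    intro h
    have := gE_rho_pow (n := n) 0
    rw [h, mul_zero, pow_zero] at this
    exact gE_one_pos.ne' this
  apply mul_right_cancel₀ h1
  rw [← gE_rho_pow, mul_assoc, ← gE_rho_pow, pow_succ', gE_rho_mul (rho_pow_hom l)]
  push_cast
  ring

lemma gE_sI [NeZero n] {l l' : ℕ} {p q : P0 n} (hp : p.IsHomogeneous l)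
    (hq : q.IsHomogeneous l') :
    gE (p * q) = kap n (l + l') * sI fun w => pfun p w * pfun q w := by
  rw [gE_hom (hp.mul hq)]
  simp only [pfun_mul, sI]

end Pol1

open Pol1 in
theorem pol1S : Pol1S := by
  intro n hn
  have : NeZero n := ⟨by omega⟩
  refine ⟨fis_comm, fis_nonneg, fis_cs, fis_smul_left, gE_one_pos,
    fun l l' p q hp hq => gE_mul l' l p q hp hq, fun k g hg => gE_rho_mul hg,
    fun l => div_pos (kap_pos _) gE_one_pos, fun l => ?_, fun l p q hp hq => ?_,
    fun l l' p q hp hq hne => ?_⟩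
  · unfold kp
    rw [kap_succ, mul_div_assoc]
  · have h1 := gE_mul l l p q hp hq
    rw [gE_sI hp.hom hq.hom, ← two_mul] at h1
    unfold kp
    rw [div_mul_eq_mul_div, h1, mul_div_cancel_left₀ _ gE_one_pos.ne']
  · have h1 := gE_mul l' l p q hp hq
    rw [gE_sI hp.hom hq.hom, fis_deg hp.hom hq.hom hne, mul_zero] at h1
    exact (mul_eq_zero.1 h1).resolve_left (kap_ne_zero _)

end Crest.Agent.N221.Car
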